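import Vale.Agent.P146.Defs
import Vale.Agent.P146.H425.Gauss

/-!
# P146: contiguity, part 1

For `a z = ∑ z_i w_i`, `|w| ≤ 1`, and a standard Gaussian vector `z` in dimension `n`:
`E exp (θ n / 2 * a² / (ε + |z|²)) ≤ (1 - θ)^(-1/2)`.
-/

open MeasureTheory ProbabilityTheory
open scoped ENNReal

namespace Vale.Agent.P146.H877

open Vale.Agent.P157.Lv Vale.Agent.P146.H425

section one

lemma integral_exp_sq {l : ℝ} (hl : l < 1 / 2) :
    ∫ x, Real.exp (l * x ^ 2) ∂(gaussianReal 0 1) = 1 / Real.sqrt (1 - 2 * l) := by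
  rw [integral_gaussianReal_eq_integral_smul one_ne_zero]
  have h1 : ∀ x : ℝ, gaussianPDFReal 0 1 x • Real.exp (l * x ^ 2) =
      (Real.sqrt (2 * Real.pi))⁻¹ * Real.exp (-(1 / 2 - l) * x ^ 2) := by
    intro x
    rw [gaussianPDFReal_def, smul_eq_mul, mul_assoc, ← Real.exp_add]
    simp only [NNReal.coe_one, mul_one, sub_zero]
    congr 2
    ring
  simp only [h1]
  have h2 : 0 < 1 / 2 - l := by linarith
  have h3 : 0 < 1 - 2 * l := by linarith
  have e0 : 1 / Real.sqrt (1 - 2 * l) = Real.sqrt ((1 - 2 * l)⁻¹) := by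
    rw [Real.sqrt_inv, one_div]
  rw [e0, integral_const_mul, integral_gaussian, ← Real.sqrt_inv,
    ← Real.sqrt_mul (by positivity)]
  congr 1
  have h4 : (1 : ℝ) / 2 - l ≠ 0 := h2.ne'
  have h5 := h3.ne'
  have h6 := Real.pi_ne_zero
  have e : 1 - 2 * l = 2 * (1 / 2 - l) := by ring
  rw [e]
  field_simp

lemma integrable_exp_sq {l : ℝ} (hl : l < 1 / 2) :
    Integrable (fun x : ℝ => Real.exp (l * x ^ 2)) (gaussianReal 0 1) := by
  by_contra h
  have h1 := integral_undef h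
  rw [integral_exp_sq hl] at h1
  have h2 : 0 < Real.sqrt (1 - 2 * l) := Real.sqrt_pos.2 (by linarith)
  have h3 : 0 < 1 / Real.sqrt (1 - 2 * l) := by positivity
  linarith

end one

variable {κ : Type} [Fintype κ]

/-- The exponential moment of a linear form. -/
lemma int_exp_lin (v : κ → ℝ) :
    Integrable (fun g => Real.exp (∑ i, v i * g i)) (gI κ) ∧
      ∫ g, Real.exp (∑ i, v i * g i) ∂(gI κ) = Real.exp ((∑ i, v i ^ 2) / 2) := by
  constructor
  · have h : (fun g : κ → ℝ => Real.exp (∑ i, v i * g i)) =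
        fun g => ∏ i, Real.exp (v i * g i) := by
      funext g
      rw [Real.exp_sum]
    rw [h]
    exact Integrable.fintype_prod (f := fun i x => Real.exp (v i * x))
      fun i => integrable_exp_mul_gaussianReal _
  · have h : (fun g : κ → ℝ => Real.exp (∑ i, v i * g i)) =
        fun g => ∏ i, Real.exp (v i * g i) := by
      funext g
      rw [Real.exp_sum]
    rw [h, integral_fintype_prod_eq_prod (𝕜 := ℝ) (fun (i : κ) (x : ℝ) => Real.exp (v i * x))
      (μ := fun _ => gaussianReal 0 1)]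
    simp only [integral_exp_affine]
    rw [← Real.exp_sum, Finset.sum_div]

lemma lint_exp_lin (v : κ → ℝ) (c : ℝ) :
    ∫⁻ g, ENNReal.ofReal (Real.exp (∑ i, v i * g i + c)) ∂(gI κ) =
      ENNReal.ofReal (Real.exp ((∑ i, v i ^ 2) / 2 + c)) := by
  have h := int_exp_lin v
  have e : (fun g : κ → ℝ => Real.exp (∑ i, v i * g i + c)) =
      fun g => Real.exp (∑ i, v i * g i) * Real.exp c := by
    funext g
    rw [Real.exp_add]
  rw [← ofReal_integral_eq_lintegral_ofReal (by rw [e]; exact h.1.mul_const _)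
    (Filter.Eventually.of_forall fun x => (Real.exp_pos _).le)]
  rw [e, integral_mul_const, h.2, ← Real.exp_add]

/-- The square of a linear form. -/
lemma lint_sq {w : κ → ℝ} (hw : ∑ i, w i ^ 2 ≤ 1) {θ : ℝ} (h0 : 0 ≤ θ) (h1 : θ < 1) :
    ∫⁻ z, ENNReal.ofReal (Real.exp (θ / 2 * (∑ i, z i * w i) ^ 2)) ∂(gI κ) ≤
      ENNReal.ofReal (1 / Real.sqrt (1 - θ)) := by
  have e1 : ∀ z : κ → ℝ, ENNReal.ofReal (Real.exp (θ / 2 * (∑ i, z i * w i) ^ 2)) =
      ∫⁻ y, ENNReal.ofReal (Real.exp (√θ * (∑ i, z i * w i) * y)) ∂(gaussianReal 0 1) := by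
    intro z
    rw [← ofReal_integral_eq_lintegral_ofReal (integrable_exp_mul_gaussianReal _)
      (Filter.Eventually.of_forall fun x => (Real.exp_pos _).le), integral_exp_affine]
    congr 2
    rw [mul_pow, Real.sq_sqrt h0]
    ring
  simp only [e1]
  rw [lintegral_lintegral_swap (by fun_prop)]
  have e2 : ∀ y : ℝ, ∫⁻ z, ENNReal.ofReal (Real.exp (√θ * (∑ i, z i * w i) * y)) ∂(gI κ) ≤
      ENNReal.ofReal (Real.exp (θ / 2 * y ^ 2)) := by
    intro y
    have h := lint_exp_lin (fun i => √θ * y * w i) 0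
    have e : ∀ z : κ → ℝ, √θ * (∑ i, z i * w i) * y = ∑ i, √θ * y * w i * z i + 0 := by
      intro z
      rw [add_zero, Finset.mul_sum, Finset.sum_mul]
      exact Finset.sum_congr rfl fun i _ => by ring
    simp only [e]
    rw [h]
    apply ENNReal.ofReal_le_ofReal
    apply Real.exp_le_exp.2
    have e3 : ∑ i, (√θ * y * w i) ^ 2 = θ * y ^ 2 * ∑ i, w i ^ 2 := by
      rw [Finset.mul_sum]
      refine Finset.sum_congr rfl fun i _ => ?_
      rw [mul_pow, mul_pow, Real.sq_sqrt h0]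
    rw [e3]
    have h3 : θ * y ^ 2 * ∑ i, w i ^ 2 ≤ θ * y ^ 2 * 1 :=
      mul_le_mul_of_nonneg_left hw (by positivity)
    linarith
  refine (lintegral_mono e2).trans ?_
  have hl : θ / 2 < 1 / 2 := by linarith
  rw [← ofReal_integral_eq_lintegral_ofReal (integrable_exp_sq hl)
    (Filter.Eventually.of_forall fun x => (Real.exp_pos _).le), integral_exp_sq hl]
  apply ENNReal.ofReal_le_ofReal
  apply le_of_eq
  congr 2
  ring

variable {n : ℕ}

/-- `K = f c`, `c = a² / (ε + |z|²)`, `f = exp (θ n c / 2)`. -/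
noncomputable def cc (ε : ℝ) (w z : Fin n → ℝ) : ℝ :=
  (∑ i, z i * w i) ^ 2 / (ε + ∑ i, z i ^ 2)

noncomputable def ff (θ ε : ℝ) (w z : Fin n → ℝ) : ℝ := Real.exp (θ * n / 2 * cc ε w z)

/-- The partial derivative of `cc`. -/
noncomputable def dc (ε : ℝ) (w : Fin n → ℝ) (e : Fin n) (z : Fin n → ℝ) : ℝ :=
  2 * (∑ i, z i * w i) * w e / (ε + ∑ i, z i ^ 2) -
    (∑ i, z i * w i) ^ 2 * (2 * z e) / (ε + ∑ i, z i ^ 2) ^ 2

lemma cc_nonneg {ε : ℝ} (hε : 0 < ε) (w z : Fin n → ℝ) : 0 ≤ cc ε w z := by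
  unfold cc
  positivity

lemma dot_sq_le {w : Fin n → ℝ} (hw : ∑ i, w i ^ 2 ≤ 1) (z : Fin n → ℝ) :
    (∑ i, z i * w i) ^ 2 ≤ ∑ i, z i ^ 2 := by
  calc (∑ i, z i * w i) ^ 2 ≤ (∑ i, z i ^ 2) * ∑ i, w i ^ 2 := Finset.sum_mul_sq_le_sq_mul_sq _ _ _
    _ ≤ (∑ i, z i ^ 2) * 1 := by gcongr
    _ = _ := mul_one _

lemma cc_le {ε : ℝ} (hε : 0 < ε) {w : Fin n → ℝ} (hw : ∑ i, w i ^ 2 ≤ 1) (z : Fin n → ℝ) :
    cc ε w z ≤ 1 := by
  unfold cc
  have h := dot_sq_le hw z
  have h2 : 0 ≤ ∑ i, z i ^ 2 := Finset.sum_nonneg fun i _ => sq_nonneg _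
  rw [div_le_one (by linarith)]
  linarith

lemma cc_mul_le {ε : ℝ} (hε : 0 < ε) (w z : Fin n → ℝ) :
    cc ε w z * ∑ i, z i ^ 2 ≤ (∑ i, z i * w i) ^ 2 := by
  unfold cc
  have h2 : 0 ≤ ∑ i, z i ^ 2 := Finset.sum_nonneg fun i _ => sq_nonneg _
  rw [div_mul_eq_mul_div, div_le_iff₀ (by linarith)]
  have h3 := mul_nonneg (sq_nonneg (∑ i, z i * w i)) hε.le
  linarith

lemma sum_update (f : Fin n → ℝ → ℝ) (z : Fin n → ℝ) (e : Fin n) (t : ℝ) :
    ∑ i, f i (Function.update z e t i) = ∑ i, f i (z i) - f e (z e) + f e t := by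
  have h : ∀ i, f i (Function.update z e t i) =
      f i (z i) + if i = e then f e t - f e (z e) else 0 := by
    intro i
    by_cases h : i = e
    · subst h
      simp
    · rw [Function.update_of_ne h, if_neg h, add_zero]
  simp only [h]
  rw [Finset.sum_add_distrib, Finset.sum_ite_eq' Finset.univ e]
  simp only [Finset.mem_univ, if_true]
  ring

lemma pd_cc {ε : ℝ} (hε : 0 < ε) (w : Fin n → ℝ) (e : Fin n) :
    PD e (cc ε w) (dc ε w e) := by
  intro z x
  have hs : ∀ f : Fin n → ℝ → ℝ, ∀ t, ∑ i, f i (Function.update z e t i) =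
      ∑ i, f i (z i) - f e (z e) + f e t := fun f t => sum_update f z e t
  have h1 : ∀ t, ∑ i, Function.update z e t i * w i =
      (∑ i, z i * w i - z e * w e) + t * w e := fun t => by
    rw [hs (fun i s => s * w i)]
  have h2 : ∀ t, ∑ i, Function.update z e t i ^ 2 =
      (∑ i, z i ^ 2 - z e ^ 2) + t ^ 2 := fun t => by
    rw [hs (fun i s => s ^ 2)]
  unfold cc dc
  simp only [h1, h2, Function.update_self]
  obtain ⟨A, hA⟩ : ∃ A, A = ∑ i, z i * w i - z e * w e := ⟨_, rfl⟩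
  obtain ⟨N, hN⟩ : ∃ N, N = ∑ i, z i ^ 2 - z e ^ 2 := ⟨_, rfl⟩
  have hN0 : 0 ≤ N := by
    rw [hN, sub_nonneg]
    exact Finset.single_le_sum (f := fun i => z i ^ 2) (fun i _ => sq_nonneg _)
      (Finset.mem_univ e)
  rw [← hA, ← hN]
  have hd : ε + (N + x ^ 2) ≠ 0 := by positivity
  have d1 : HasDerivAt (fun t : ℝ => (A + t * w e) ^ 2) (2 * (A + x * w e) * w e) x := by
    have := (((hasDerivAt_id x).mul_const (w e)).const_add A).pow 2
    refine this.congr_deriv ?_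
    simp only [id]
    norm_num
  have d2 : HasDerivAt (fun t : ℝ => ε + (N + t ^ 2)) (2 * x) x := by
    have := ((hasDerivAt_pow 2 x).const_add N).const_add ε
    refine this.congr_deriv ?_
    norm_num
  refine (d1.div d2 hd).congr_deriv ?_
  field_simp

lemma sum_dc {ε : ℝ} (hε : 0 < ε) (w z : Fin n → ℝ) :
    ∑ e, z e * dc ε w e z = 2 * ε * (∑ i, z i * w i) ^ 2 / (ε + ∑ i, z i ^ 2) ^ 2 := by
  have hN0 : 0 ≤ ∑ i, z i ^ 2 := Finset.sum_nonneg fun i _ => sq_nonneg _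
  have h : ∀ e, z e * dc ε w e z =
      (2 * (∑ i, z i * w i) / (ε + ∑ i, z i ^ 2)) * (z e * w e) -
      ((∑ i, z i * w i) ^ 2 * 2 / (ε + ∑ i, z i ^ 2) ^ 2) * z e ^ 2 := by
    intro e
    unfold dc
    ring
  simp only [h]
  rw [Finset.sum_sub_distrib, ← Finset.mul_sum, ← Finset.mul_sum]
  have hd : ε + ∑ i, z i ^ 2 ≠ 0 := by positivity
  field_simp
  ring

lemma meas_dot (w : Fin n → ℝ) : Measurable fun z : Fin n → ℝ => ∑ i, z i * w i := by fun_prop

lemma meas_cc (ε : ℝ) (w : Fin n → ℝ) : Measurable (cc ε w) := by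
  unfold cc
  fun_prop

lemma meas_ff (θ ε : ℝ) (w : Fin n → ℝ) : Measurable (ff θ ε w) := by
  unfold ff
  exact Real.measurable_exp.comp ((meas_cc ε w).const_mul _)

lemma meas_dc (ε : ℝ) (w : Fin n → ℝ) (e : Fin n) : Measurable (dc ε w e) := by
  unfold dc
  fun_prop

/-- `|z_e ∂_e c| ≤ 4`. -/
lemma abs_dc_le {ε : ℝ} (hε : 0 < ε) {w : Fin n → ℝ} (hw : ∑ i, w i ^ 2 ≤ 1) (e : Fin n)
    (z : Fin n → ℝ) : |z e * dc ε w e z| ≤ 4 := by
  obtain ⟨a, ha⟩ : ∃ a, a = ∑ i, z i * w i := ⟨_, rfl⟩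
  obtain ⟨N, hN⟩ : ∃ N, N = ∑ i, z i ^ 2 := ⟨_, rfl⟩
  have hN0 : 0 ≤ N := by rw [hN]; exact Finset.sum_nonneg fun i _ => sq_nonneg _
  have h1 : a ^ 2 ≤ N := by rw [ha, hN]; exact dot_sq_le hw z
  have h2 : z e ^ 2 ≤ N := by
    rw [hN]
    exact Finset.single_le_sum (f := fun i => z i ^ 2) (fun i _ => sq_nonneg _)
      (Finset.mem_univ e)
  have h3 : w e ^ 2 ≤ 1 := (Finset.single_le_sum (f := fun i => w i ^ 2)
      (fun i _ => sq_nonneg _) (Finset.mem_univ e)).trans hw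
  have h4 : |a * z e| ≤ N := by
    rw [abs_le]
    constructor <;> nlinarith [sq_nonneg (a - z e), sq_nonneg (a + z e)]
  have h5 : |w e| ≤ 1 := by
    rw [← sq_abs] at h3
    nlinarith [abs_nonneg (w e)]
  have hD : 0 < ε + N := by linarith
  have e1 : z e * dc ε w e z = 2 * (a * z e) * w e / (ε + N) -
      2 * (a * z e) ^ 2 / (ε + N) ^ 2 := by
    unfold dc
    rw [← ha, ← hN]
    ring
  rw [e1]
  refine (abs_sub _ _).trans ?_
  have h6 : |2 * (a * z e) * w e / (ε + N)| ≤ 2 := by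
    rw [abs_div, abs_of_pos hD, div_le_iff₀ hD, abs_mul, abs_mul, abs_two]
    calc 2 * |a * z e| * |w e| ≤ 2 * N * 1 := by gcongr
      _ ≤ 2 * (ε + N) := by linarith
  have h7 : |2 * (a * z e) ^ 2 / (ε + N) ^ 2| ≤ 2 := by
    have h8 : (a * z e) ^ 2 ≤ (ε + N) ^ 2 := by
      rw [← sq_abs]
      exact pow_le_pow_left₀ (abs_nonneg _) (by linarith) 2
    rw [abs_of_nonneg (by positivity), div_le_iff₀ (by positivity)]
    linarith
  linarith

/-- The main estimate: the radial part averages out. -/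
theorem rad_le {θ ε : ℝ} (h0 : 0 ≤ θ) (hε : 0 < ε) {w : Fin n → ℝ}
    (hw : ∑ i, w i ^ 2 ≤ 1) :
    0 ≤ ∫ z, ff θ ε w z * cc ε w z * ((∑ i, z i ^ 2) - n) ∂(gI (Fin n)) := by
  obtain ⟨K, hK⟩ : ∃ K : (Fin n → ℝ) → ℝ, K = fun z => ff θ ε w z * cc ε w z := ⟨_, rfl⟩
  obtain ⟨M, hM⟩ : ∃ M : ℝ, M = Real.exp (θ * n / 2) := ⟨_, rfl⟩
  have hff : ∀ z, ff θ ε w z ≤ M := by
    intro z
    rw [hM]
    unfold ff
    apply Real.exp_le_exp.2
    calc θ * n / 2 * cc ε w z ≤ θ * n / 2 * 1 :=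
          mul_le_mul_of_nonneg_left (cc_le hε hw z) (by positivity)
      _ = _ := mul_one _
  have hff0 : ∀ z, 0 < ff θ ε w z := fun z => Real.exp_pos _
  have hM0 : 0 < M := by rw [hM]; exact Real.exp_pos _
  have mK : Measurable K := by
    rw [hK]
    exact (meas_ff θ ε w).mul (meas_cc ε w)
  have bK : ∀ z, |K z| ≤ M := by
    intro z
    rw [hK]
    simp only
    rw [abs_mul, abs_of_pos (hff0 z), abs_of_nonneg (cc_nonneg hε w z)]
    calc ff θ ε w z * cc ε w z ≤ M * 1 :=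
          mul_le_mul (hff z) (cc_le hε hw z) (cc_nonneg hε w z) hM0.le
      _ = M := mul_one _
  have eK : EG K := EG.of_bdd mK bK
  -- the derivative of `K`
  obtain ⟨K', hK'⟩ : ∃ K' : Fin n → (Fin n → ℝ) → ℝ, K' = fun e z =>
      (1 + θ * n / 2 * cc ε w z) * ff θ ε w z * dc ε w e z := ⟨_, rfl⟩
  have pK : ∀ e, PD e K (K' e) := by
    intro e z x
    have h1 := pd_cc hε w e z x
    have h2 : HasDerivAt (fun t => ff θ ε w (Function.update z e t))
        (ff θ ε w (Function.update z e x) * (θ * n / 2 * dc ε w e (Function.update z e x))) x :=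
      (h1.const_mul (θ * n / 2)).exp
    rw [hK, hK']
    refine (h2.mul h1).congr_deriv ?_
    ring
  obtain ⟨G, hG⟩ : ∃ G : Fin n → (Fin n → ℝ) → ℝ, G = fun e z => K z + z e * K' e z :=
    ⟨_, rfl⟩
  have pG : ∀ e, PD e (fun z => z e * K z) (G e) := by
    intro e z x
    have h1 := (hasDerivAt_id x).mul (pK e z x)
    have h2 : (fun t => (fun z => z e * K z) (Function.update z e t)) =
        fun t => id t * K (Function.update z e t) := by
      funext t
      simp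
    rw [h2]
    refine h1.congr_deriv ?_
    rw [hG]
    simp
  have mK' : ∀ e, Measurable (K' e) := by
    intro e
    rw [hK']
    exact ((((meas_cc ε w).const_mul _).const_add 1).mul (meas_ff θ ε w)).mul (meas_dc ε w e)
  have bK' : ∀ e z, |z e * K' e z| ≤ (1 + θ * n / 2) * M * 4 := by
    intro e z
    have e1 : z e * K' e z = ((1 + θ * n / 2 * cc ε w z) * ff θ ε w z) * (z e * dc ε w e z) := by
      rw [hK']
      ring
    rw [e1, abs_mul]
    have h1 := abs_dc_le hε hw e z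
    have h2 : 0 ≤ cc ε w z := cc_nonneg hε w z
    have h3 := cc_le hε hw z
    have h4 : 0 ≤ θ * n / 2 := by positivity
    have h5 : 0 ≤ 1 + θ * n / 2 * cc ε w z := by positivity
    have h6 : |(1 + θ * n / 2 * cc ε w z) * ff θ ε w z| ≤ (1 + θ * n / 2) * M := by
      rw [abs_of_nonneg (mul_nonneg h5 (hff0 z).le)]
      refine mul_le_mul ?_ (hff z) (hff0 z).le (by positivity)
      have := mul_le_mul_of_nonneg_left h3 h4
      linarith
    exact mul_le_mul h6 h1 (abs_nonneg _) (by positivity)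
  have eK'' : ∀ e, EG (fun z : Fin n → ℝ => z e * K' e z) := fun e =>
    EG.of_bdd ((measurable_pi_apply e).mul (mK' e)) (bK' e)
  have eG : ∀ e, EG (G e) := by
    intro e
    rw [hG]
    exact eK.add (eK'' e)
  have st : ∀ e, ∫ z, z e * (z e * K z) ∂(gI (Fin n)) = ∫ z, G e z ∂(gI (Fin n)) := fun e =>
    (pG e).stein ((EG.coord e).mul eK) (eG e)
  have i1 : ∀ e, Integrable (fun z : Fin n → ℝ => z e * (z e * K z)) (gI (Fin n)) := fun e =>
    ((EG.coord e).mul ((EG.coord e).mul eK)).integrable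
  have e1 : ∫ z, (∑ i, z i ^ 2) * K z ∂(gI (Fin n)) =
      ∑ e, ∫ z, z e * (z e * K z) ∂(gI (Fin n)) := by
    rw [← integral_finsetSum _ fun e _ => i1 e]
    congr 1
    funext z
    rw [Finset.sum_mul]
    exact Finset.sum_congr rfl fun e _ => by ring
  have e2 : ∑ e, ∫ z, G e z ∂(gI (Fin n)) = n * ∫ z, K z ∂(gI (Fin n)) +
      ∫ z, ∑ e, z e * K' e z ∂(gI (Fin n)) := by
    have h1 : ∀ e, ∫ z, G e z ∂(gI (Fin n)) = ∫ z, K z ∂(gI (Fin n)) +
        ∫ z, z e * K' e z ∂(gI (Fin n)) := by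
      intro e
      rw [hG]
      exact integral_add eK.integrable (eK'' e).integrable
    simp only [h1]
    rw [Finset.sum_add_distrib, Finset.sum_const, Finset.card_univ, Fintype.card_fin,
      nsmul_eq_mul, integral_finsetSum _ fun e _ => (eK'' e).integrable]
  have e3 : 0 ≤ ∫ z, ∑ e, z e * K' e z ∂(gI (Fin n)) := by
    refine integral_nonneg fun z => ?_
    have h1 : ∑ e, z e * K' e z = ((1 + θ * n / 2 * cc ε w z) * ff θ ε w z) *
        ∑ e, z e * dc ε w e z := by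
      rw [Finset.mul_sum, hK']
      exact Finset.sum_congr rfl fun e _ => by ring
    simp only [Pi.zero_apply]
    rw [h1, sum_dc hε]
    have h2 : 0 ≤ cc ε w z := cc_nonneg hε w z
    have h3 : 0 < ff θ ε w z := hff0 z
    positivity
  have iN : Integrable (fun z : Fin n → ℝ => (∑ i, z i ^ 2) * K z) (gI (Fin n)) := by
    have : EG (fun z : Fin n → ℝ => (∑ i, z i ^ 2) * K z) :=
      (EG.sum _ fun i _ => (EG.coord i).pow 2).mul eK
    exact this.integrable
  have e4 : ∫ z, ff θ ε w z * cc ε w z * ((∑ i, z i ^ 2) - n) ∂(gI (Fin n)) =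
      ∫ z, (∑ i, z i ^ 2) * K z ∂(gI (Fin n)) - n * ∫ z, K z ∂(gI (Fin n)) := by
    rw [← integral_const_mul, ← integral_sub iN (eK.integrable.const_mul _)]
    congr 1
    funext z
    rw [hK]
    ring
  rw [e4, e1]
  simp only [st]
  rw [e2]
  linarith

/-- **The exponential moment of the squared cosine.** -/
theorem lint_ff {θ ε : ℝ} (h0 : 0 ≤ θ) (h1 : θ < 1) (hε : 0 < ε) {w : Fin n → ℝ}
    (hw : ∑ i, w i ^ 2 ≤ 1) :
    ∫⁻ z, ENNReal.ofReal (ff θ ε w z) ∂(gI (Fin n)) ≤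
      ENNReal.ofReal (1 / Real.sqrt (1 - θ)) := by
  have hff0 : ∀ z, 0 < ff θ ε w z := fun z => Real.exp_pos _
  have hffb : ∀ z, |ff θ ε w z| ≤ Real.exp (θ * n / 2) := by
    intro z
    rw [abs_of_pos (hff0 z)]
    unfold ff
    apply Real.exp_le_exp.2
    calc θ * n / 2 * cc ε w z ≤ θ * n / 2 * 1 :=
          mul_le_mul_of_nonneg_left (cc_le hε hw z) (by positivity)
      _ = _ := mul_one _
  have ef : EG (ff θ ε w) := EG.of_bdd (meas_ff θ ε w) hffb
  have ec : EG (cc ε w) := EG.of_bdd (meas_cc ε w) (C := 1) fun z => by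
    rw [abs_of_nonneg (cc_nonneg hε w z)]
    exact cc_le hε hw z
  have eN : EG (fun z : Fin n → ℝ => (∑ i, z i ^ 2) - n) :=
    (EG.sum _ fun i _ => (EG.coord i).pow 2).sub (EG.const _)
  have ep : EG (fun z : Fin n → ℝ => ff θ ε w z * cc ε w z * ((∑ i, z i ^ 2) - n)) :=
    (ef.mul ec).mul eN
  have hL := lint_sq hw h0 h1
  have hint : Integrable (fun z : Fin n → ℝ => Real.exp (θ / 2 * (∑ i, z i * w i) ^ 2))
      (gI (Fin n)) := by
    refine ⟨(by fun_prop : Measurable _).aestronglyMeasurable, ?_⟩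
    rw [hasFiniteIntegral_iff_ofReal (Filter.Eventually.of_forall fun x => (Real.exp_pos _).le)]
    exact hL.trans_lt ENNReal.ofReal_lt_top
  have hI : ∫ z, Real.exp (θ / 2 * (∑ i, z i * w i) ^ 2) ∂(gI (Fin n)) ≤
      1 / Real.sqrt (1 - θ) := by
    rw [← ofReal_integral_eq_lintegral_ofReal hint
      (Filter.Eventually.of_forall fun x => (Real.exp_pos _).le)] at hL
    exact (ENNReal.ofReal_le_ofReal_iff (by positivity)).1 hL
  rw [← ofReal_integral_eq_lintegral_ofReal ef.integrable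
      (Filter.Eventually.of_forall fun x => (hff0 x).le)]
  apply ENNReal.ofReal_le_ofReal
  refine le_trans ?_ hI
  have hr := rad_le (n := n) h0 hε hw
  have h2 : ∫ z, ff θ ε w z ∂(gI (Fin n)) + θ / 2 *
      ∫ z, ff θ ε w z * cc ε w z * ((∑ i, z i ^ 2) - n) ∂(gI (Fin n)) ≤
      ∫ z, Real.exp (θ / 2 * (∑ i, z i * w i) ^ 2) ∂(gI (Fin n)) := by
    rw [← integral_const_mul, ← integral_add ef.integrable (ep.integrable.const_mul _)]
    refine integral_mono (ef.integrable.add (ep.integrable.const_mul _)) hint fun z => ?_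
    simp only
    have h3 : Real.exp (θ / 2 * (cc ε w z * ∑ i, z i ^ 2)) ≤
        Real.exp (θ / 2 * (∑ i, z i * w i) ^ 2) := by
      apply Real.exp_le_exp.2
      exact mul_le_mul_of_nonneg_left (cc_mul_le hε w z) (by positivity)
    refine le_trans ?_ h3
    have h4 : Real.exp (θ / 2 * (cc ε w z * ∑ i, z i ^ 2)) =
        ff θ ε w z * Real.exp (θ / 2 * (cc ε w z * ((∑ i, z i ^ 2) - n))) := by
      unfold ff
      rw [← Real.exp_add]
      congr 1
      ring
    rw [h4]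
    have h5 := Real.add_one_le_exp (θ / 2 * (cc ε w z * ((∑ i, z i ^ 2) - n)))
    have h6 := mul_le_mul_of_nonneg_left h5 (hff0 z).le
    linarith
  have h3 : 0 ≤ θ / 2 := by positivity
  have h4 := mul_nonneg h3 hr
  linarith

end Vale.Agent.P146.H877
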