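import Vale.Agent.P146.H877.ContigVar

/-!
# P146: contiguity in terms of the secant response

`At β n x v = (2 β / (n v)) (Φ(x, v) - Φ(x, 0))`, `Φ(x, v) = (1 / x) log E exp (x F_v)`, and
`kap β n x = log E exp (x (F - E F))`.
-/

open MeasureTheory ProbabilityTheory Filter Topology

namespace Vale.Agent.P146.H877

open Vale.Agent.P157.Lv Vale.Agent.P146

/-- `log E exp (x (F - E F))` -/
noncomputable def kap (β : ℝ) (n : ℕ) (x : ℝ) : ℝ :=
  Real.log (∫ g, Real.exp (x * (freeEnergy n β g - ∫ h, freeEnergy n β h ∂(disorder n)))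
    ∂(disorder n))

/-- The secant response. -/
noncomputable def At (β : ℝ) (n : ℕ) (x v : ℝ) : ℝ :=
  2 * β / (n * v * x) * (LPhi n β x v - LPhi n β x 0)

lemma kap_nonneg (β : ℝ) (n : ℕ) (x : ℝ) : 0 ≤ kap β n x := log_center_nonneg n β x

/-- `κ(2x) ≥ 2 κ(x)`. -/
lemma kap_two (β : ℝ) (n : ℕ) (x : ℝ) : kap β n x ≤ kap β n (2 * x) / 2 := by
  have hprob : IsProbabilityMeasure (disorder n) := by
    unfold disorder
    infer_instance
  obtain ⟨m, hm⟩ : ∃ m, m = ∫ h, freeEnergy n β h ∂(disorder n) := ⟨_, rfl⟩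
  have hint : ∀ y : ℝ, Integrable (fun g => Real.exp (y * (freeEnergy n β g - m)))
      (disorder n) := by
    intro y
    have e : (fun g => Real.exp (y * (freeEnergy n β g - m))) =
        fun g => Real.exp (y * freeEnergy n β g) * Real.exp (-(y * m)) := by
      funext g
      rw [← Real.exp_add]
      congr 1
      ring
    rw [e]
    exact (eg_exp_free n β y).integrable.mul_const _
  unfold kap
  rw [← hm]
  obtain ⟨I, hI⟩ : ∃ I, I = ∫ g, Real.exp (x * (freeEnergy n β g - m)) ∂(disorder n) := ⟨_, rfl⟩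
  have hI0 : 0 < I := by rw [hI]; exact integral_exp_pos (hint x)
  have h1 : I ^ 2 ≤ ∫ g, Real.exp (2 * x * (freeEnergy n β g - m)) ∂(disorder n) := by
    have h2 : 0 ≤ ∫ g, (Real.exp (x * (freeEnergy n β g - m)) - I) ^ 2 ∂(disorder n) :=
      integral_nonneg fun _ => sq_nonneg _
    have h3 : ∀ g, (Real.exp (x * (freeEnergy n β g - m)) - I) ^ 2 =
        Real.exp (2 * x * (freeEnergy n β g - m)) -
          2 * I * Real.exp (x * (freeEnergy n β g - m)) + I ^ 2 := by
      intro g
      have : Real.exp (2 * x * (freeEnergy n β g - m)) =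
          Real.exp (x * (freeEnergy n β g - m)) ^ 2 := by
        rw [← Real.exp_nat_mul]
        congr 1
        push_cast
        ring
      rw [this]
      ring
    simp only [h3] at h2
    have h5 : Integrable (fun g => Real.exp (2 * x * (freeEnergy n β g - m)) -
        2 * I * Real.exp (x * (freeEnergy n β g - m))) (disorder n) :=
      (hint (2 * x)).sub ((hint x).const_mul _)
    rw [integral_add h5 (integrable_const _), integral_sub (hint (2 * x)) ((hint x).const_mul _),
      integral_const_mul, ← hI, integral_const, probReal_univ, one_smul] at h2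
    nlinarith
  rw [← hI]
  have h4 := Real.log_le_log (by positivity) h1
  rw [Real.log_pow] at h4
  push_cast at h4
  linarith

/-- **Contiguity of the secant response**: the sharp constant. -/
theorem contig_At {β : ℝ} (hβ : 0 < β) {n : ℕ} (hn : 1 ≤ n) {x v : ℝ} (hx : 0 < x) (hv : 0 < v)
    (hxv : 4 * (x * v) ≤ β) :
    x * n * v / (2 * β) * (At β n x v - 1) ≤ kap β n (2 * x) / 2 - kap β n x +
      4 / β ^ 2 * (n * (x * v) ^ 2) + (x * β + Real.log (2 * n)) := by
  have hn0 : (0 : ℝ) < n := by exact_mod_cast hn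
  have h1 := contig_center n β hn (m := ∫ h, freeEnergy n β h ∂(disorder n)) hβ hv.le hx.le hxv
  have e1 : x * n * v / (2 * β) * (At β n x v - 1) =
      (LPhi n β x v - LPhi n β x 0) - n * (x * v / (2 * β)) := by
    unfold At
    field_simp
  have e2 : 4 * n * (x * v / β) ^ 2 = 4 / β ^ 2 * (n * (x * v) ^ 2) := by
    field_simp
  rw [e1]
  unfold kap
  linarith

/-- The form with the factor `1 / 4`. -/
theorem contig_four {β : ℝ} (hβ : 1 ≤ β) : ∃ C : ℝ, 0 ≤ C ∧
    ∀ n : ℕ, 1 ≤ n → ∀ x v : ℝ, 0 < x → x ≤ 1 / 4 → 0 < v → v ≤ 1 →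
      x * n * v / (4 * β) * (At β n x v - 1) ≤ kap β n (2 * x) / 2 - kap β n x +
        C * (1 + Real.log n) + C * (n * (x * v) ^ 2) := by
  have hβ0 : 0 < β := by linarith
  refine ⟨4 + β, by linarith, fun n hn x v hx hx1 hv hv1 => ?_⟩
  have hn1 : (1 : ℝ) ≤ n := by exact_mod_cast hn
  have hn0 : (0 : ℝ) < n := by linarith
  have hxv : 4 * (x * v) ≤ β := by nlinarith
  have h1 := contig_At hβ0 hn hx hv hxv
  have h2 := kap_two β n x
  have hl : 0 ≤ Real.log n := Real.log_nonneg hn1
  have e1 : Real.log (2 * n) = Real.log 2 + Real.log n := Real.log_mul (by norm_num) hn0.ne'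
  have h3 := Real.log_two_lt_d9
  have h4 : x * β ≤ β := by nlinarith
  have h5 : x * β + Real.log (2 * n) ≤ (4 + β) * (1 + Real.log n) := by
    rw [e1]
    nlinarith
  have h6 : 4 / β ^ 2 * (n * (x * v) ^ 2) ≤ (4 + β) * (n * (x * v) ^ 2) := by
    have : 4 / β ^ 2 ≤ 4 + β := by
      rw [div_le_iff₀ (by positivity)]
      nlinarith [mul_nonneg hβ0.le hβ0.le]
    gcongr
  have h7 : 0 ≤ n * (x * v) ^ 2 := by positivity
  rcases le_total 1 (At β n x v) with hA | hA
  · have h8 : x * n * v / (4 * β) * (At β n x v - 1) ≤ x * n * v / (2 * β) * (At β n x v - 1) := by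
      have : x * n * v / (4 * β) ≤ x * n * v / (2 * β) := by
        gcongr
        norm_num
      exact mul_le_mul_of_nonneg_right this (by linarith)
    linarith
  · have h8 : x * n * v / (4 * β) * (At β n x v - 1) ≤ 0 :=
      mul_nonpos_of_nonneg_of_nonpos (by positivity) (by linarith)
    have h9 : 0 ≤ (4 + β) * (1 + Real.log n) := by positivity
    have h10 : 0 ≤ (4 + β) * (n * (x * v) ^ 2) := by positivity
    linarith

end Vale.Agent.P146.H877
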