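import Vale.Agent.P146.H877.Tilt
import Vale.Agent.P146.H863.GumLC

/-!
# P146: contiguity

The exponential moment of the free energy in a Gaussian field of variance `v` is at most the
square root of the exponential moment at the double exponent, times `exp (n x v / (2 β))`, up to a
power of `n`: second moment method for the rank one perturbations `J z zᵀ / |z|²` of the disorder,
`J < 1`.
-/

open MeasureTheory ProbabilityTheory
open scoped ENNReal

namespace Vale.Agent.P146.H877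

open Vale.Agent.P157.Lv Vale.Agent.P146 Vale.Agent.P146.H425

variable {n : ℕ}

/-- The rank one direction `√(θ n) z zᵀ / (ε + |z|²)`. -/
noncomputable def sh (n : ℕ) (θ ε : ℝ) (z : Fin n → ℝ) : Pair n → ℝ :=
  fun p => √(θ * n) * (z p.1.1 * z p.1.2) / (ε + ∑ i, z i ^ 2)

lemma meas_sh (θ ε : ℝ) : Measurable (sh n θ ε) := by
  refine measurable_pi_lambda _ fun p => ?_
  unfold sh
  fun_prop

lemma pair_sum (F : Fin n → Fin n → ℝ) :
    ∑ p : Pair n, F p.1.1 p.1.2 = ∑ i, ∑ j, if i < j then F i j else 0 := by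
  rw [← Fintype.sum_prod_type' (f := fun i j : Fin n => if i < j then F i j else 0),
    ← Finset.sum_filter]
  symm
  exact Finset.sum_subtype _ (fun q => by simp) (fun q : Fin n × Fin n => F q.1 q.2)

lemma pair_sq (U : Fin n → ℝ) :
    ∑ p : Pair n, U p.1.1 * U p.1.2 = ((∑ i, U i) ^ 2 - ∑ i, U i ^ 2) / 2 := by
  rw [pair_sum fun i j => U i * U j]
  have h1 : (∑ i, U i) ^ 2 = ∑ i, ∑ j, U i * U j := by
    rw [sq, Finset.sum_mul_sum]
  have h2 : ∑ i, ∑ j, U i * U j = (∑ i, ∑ j, if i < j then U i * U j else 0) +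
      (∑ i, ∑ j, if j < i then U i * U j else 0) + ∑ i, U i ^ 2 := by
    rw [← Finset.sum_add_distrib, ← Finset.sum_add_distrib]
    apply Finset.sum_congr rfl
    intro i _
    have h3 : U i ^ 2 = ∑ j, if i = j then U i * U j else 0 := by
      rw [Finset.sum_ite_eq]
      simp [sq]
    rw [h3, ← Finset.sum_add_distrib, ← Finset.sum_add_distrib]
    apply Finset.sum_congr rfl
    intro j _
    rcases lt_trichotomy i j with h | h | h
    · rw [if_pos h, if_neg h.not_gt, if_neg h.ne]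
      ring
    · subst h
      simp
    · rw [if_neg h.not_gt, if_pos h, if_neg h.ne']
      ring
  have h4 : (∑ i, ∑ j, if j < i then U i * U j else 0) =
      ∑ i, ∑ j, if i < j then U i * U j else 0 := by
    rw [Finset.sum_comm]
    apply Finset.sum_congr rfl
    intro i _
    apply Finset.sum_congr rfl
    intro j _
    rw [mul_comm]
  rw [h1, h2, h4]
  ring

/-- The second moment. -/
lemma sh_inner {θ ε : ℝ} (h0 : 0 ≤ θ) (hε : 0 < ε) (z z' : Fin n → ℝ) :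
    ∑ p, sh n θ ε z p * sh n θ ε z' p ≤
      θ * n / 2 * cc ε (fun i => (√(ε + ∑ i, z' i ^ 2))⁻¹ * z' i) z := by
  have hN : 0 ≤ ∑ i, z i ^ 2 := Finset.sum_nonneg fun i _ => sq_nonneg _
  have hN' : 0 ≤ ∑ i, z' i ^ 2 := Finset.sum_nonneg fun i _ => sq_nonneg _
  have hD' : 0 < ε + ∑ i, z' i ^ 2 := by linarith
  have hD : 0 < ε + ∑ i, z i ^ 2 := by linarith
  have e1 : ∀ p : Pair n, sh n θ ε z p * sh n θ ε z' p =
      θ * n / ((ε + ∑ i, z i ^ 2) * (ε + ∑ i, z' i ^ 2)) *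
        ((z p.1.1 * z' p.1.1) * (z p.1.2 * z' p.1.2)) := by
    intro p
    have h1 : √(θ * n) * √(θ * n) = θ * n := Real.mul_self_sqrt (by positivity)
    unfold sh
    rw [div_mul_div_comm, div_mul_eq_mul_div]
    congr 1
    calc √(θ * n) * (z p.1.1 * z p.1.2) * (√(θ * n) * (z' p.1.1 * z' p.1.2))
        = (√(θ * n) * √(θ * n)) * ((z p.1.1 * z' p.1.1) * (z p.1.2 * z' p.1.2)) := by ring
      _ = _ := by rw [h1]
  simp only [e1]
  rw [← Finset.mul_sum, pair_sq fun i => z i * z' i]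
  have e2 : ∑ i, z i * ((√(ε + ∑ i, z' i ^ 2))⁻¹ * z' i) =
      (√(ε + ∑ i, z' i ^ 2))⁻¹ * ∑ i, z i * z' i := by
    rw [Finset.mul_sum]
    exact Finset.sum_congr rfl fun i _ => by ring
  unfold cc
  rw [e2, mul_pow, inv_pow, Real.sq_sqrt hD'.le]
  have h3 : 0 ≤ ∑ i, (z i * z' i) ^ 2 := Finset.sum_nonneg fun i _ => sq_nonneg _
  have e3 : θ * n / 2 * ((ε + ∑ i, z' i ^ 2)⁻¹ * (∑ i, z i * z' i) ^ 2 / (ε + ∑ i, z i ^ 2)) =
      θ * n / ((ε + ∑ i, z i ^ 2) * (ε + ∑ i, z' i ^ 2)) * ((∑ i, z i * z' i) ^ 2 / 2) := by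
    field_simp
  rw [e3]
  exact mul_le_mul_of_nonneg_left (by linarith) (by positivity)

lemma nsq_le {ε : ℝ} (hε : 0 < ε) (z' : Fin n → ℝ) :
    ∑ i, ((√(ε + ∑ i, z' i ^ 2))⁻¹ * z' i) ^ 2 ≤ 1 := by
  have hN' : 0 ≤ ∑ i, z' i ^ 2 := Finset.sum_nonneg fun i _ => sq_nonneg _
  have hD' : 0 < ε + ∑ i, z' i ^ 2 := by linarith
  have e : ∀ i, ((√(ε + ∑ i, z' i ^ 2))⁻¹ * z' i) ^ 2 = (ε + ∑ i, z' i ^ 2)⁻¹ * z' i ^ 2 := by
    intro i
    rw [mul_pow, inv_pow, Real.sq_sqrt hD'.le]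
  simp only [e]
  rw [← Finset.mul_sum, inv_mul_le_iff₀ hD']
  linarith

lemma sh_scale {θ ε c : ℝ} (hε : 0 < ε) (hc : 0 < c) (z : Fin n → ℝ) :
    sh n θ ε (c⁻¹ • z) = sh n θ (c ^ 2 * ε) z := by
  funext p
  have hN : 0 ≤ ∑ i, z i ^ 2 := Finset.sum_nonneg fun i _ => sq_nonneg _
  unfold sh
  have e1 : ∑ i, (c⁻¹ • z) i ^ 2 = (c ^ 2)⁻¹ * ∑ i, z i ^ 2 := by
    rw [Finset.mul_sum]
    refine Finset.sum_congr rfl fun i _ => ?_
    rw [Pi.smul_apply, smul_eq_mul, mul_pow, inv_pow]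
  rw [e1]
  simp only [Pi.smul_apply, smul_eq_mul]
  have h2 : 0 < c ^ 2 * ε + ∑ i, z i ^ 2 := by positivity
  have h3 : 0 < ε + (c ^ 2)⁻¹ * ∑ i, z i ^ 2 := by positivity
  field_simp

/-- **Contiguity, abstract form.** -/
theorem contig_abs {θ ρ ε C x : ℝ} (h0 : 0 ≤ θ) (h1 : θ < 1) (hρ : ρ < 1) (hε : 0 < ε)
    {U : (Pair n → ℝ) → ℝ} (mU : Measurable U) {V : (Fin n → ℝ) → (Pair n → ℝ) → ℝ}
    (h : ∀ z g, V z g ≤ x * U (g + sh n θ ε z) + ρ / 2 * ∑ i, z i ^ 2 + C) :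
    ∫⁻ z, ∫⁻ g, ENNReal.ofReal (Real.exp (V z g)) ∂(gI (Pair n)) ∂(gI (Fin n)) ≤
      ENNReal.ofReal (Real.exp C) * (ENNReal.ofReal ((√(1 - ρ) ^ n)⁻¹) *
        ((∫⁻ g, ENNReal.ofReal (Real.exp (2 * x * U g)) ∂(gI (Pair n))) ^ (1 / 2 : ℝ) *
          ENNReal.ofReal (1 / √(1 - θ)) ^ (1 / 2 : ℝ))) := by
  obtain ⟨f, hf⟩ : ∃ f : (Pair n → ℝ) → ℝ≥0∞, f = fun g => ENNReal.ofReal (Real.exp (x * U g)) :=
    ⟨_, rfl⟩
  have mf : Measurable f := by
    rw [hf]
    exact (Real.measurable_exp.comp (mU.const_mul x)).ennreal_ofReal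
  obtain ⟨c, hc⟩ : ∃ c, c = √(1 - ρ) := ⟨_, rfl⟩
  have hc0 : 0 < c := by rw [hc]; exact Real.sqrt_pos.2 (by linarith)
  obtain ⟨q, hq⟩ : ∃ q : (Fin n → ℝ) → ℝ≥0∞, q = fun z => ∫⁻ g, f (g + sh n θ ε z) ∂(gI (Pair n)) :=
    ⟨_, rfl⟩
  have mq : Measurable q := by
    rw [hq]
    have m1 : Measurable fun p : (Fin n → ℝ) × (Pair n → ℝ) => f (p.2 + sh n θ ε p.1) :=
      mf.comp (measurable_snd.add ((meas_sh θ ε).comp measurable_fst))
    exact m1.lintegral_prod_right'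
  have e1 : ∀ z, ∫⁻ g, ENNReal.ofReal (Real.exp (V z g)) ∂(gI (Pair n)) ≤
      ENNReal.ofReal (Real.exp C) *
        (ENNReal.ofReal (Real.exp (ρ / 2 * ∑ i, z i ^ 2)) * q z) := by
    intro z
    rw [hq]
    simp only
    have mg : Measurable fun g => f (g + sh n θ ε z) := mf.comp (measurable_id.add_const _)
    rw [← lintegral_const_mul _ mg, ← lintegral_const_mul _ (mg.const_mul _)]
    refine lintegral_mono fun g => ?_
    rw [hf]
    simp only
    rw [← ENNReal.ofReal_mul (Real.exp_pos _).le, ← ENNReal.ofReal_mul (Real.exp_pos _).le,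
      ← Real.exp_add, ← Real.exp_add]
    apply ENNReal.ofReal_le_ofReal
    apply Real.exp_le_exp.2
    have := h z g
    linarith
  refine (lintegral_mono e1).trans ?_
  have mw : Measurable fun z : Fin n → ℝ =>
      ENNReal.ofReal (Real.exp (ρ / 2 * ∑ i, z i ^ 2)) * q z :=
    Measurable.mul (by fun_prop) mq
  rw [lintegral_const_mul _ mw, lint_scale hρ mq, ← hc]
  refine mul_le_mul_right (mul_le_mul_right ?_ _) _
  have e2 : ∀ z, q (c⁻¹ • z) = ∫⁻ g, f (g + sh n θ (c ^ 2 * ε) z) ∂(gI (Pair n)) := by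
    intro z
    rw [hq]
    simp only
    rw [sh_scale hε hc0]
  simp only [e2]
  refine (tilt_le (ν := gI (Fin n)) (meas_sh θ (c ^ 2 * ε)) mf).trans ?_
  have hε' : 0 < c ^ 2 * ε := by positivity
  refine mul_le_mul' (le_of_eq ?_) ?_
  · congr 1
    refine lintegral_congr fun g => ?_
    rw [hf]
    simp only
    rw [← ENNReal.ofReal_pow (Real.exp_pos _).le, ← Real.exp_nat_mul]
    congr 2
    push_cast
    ring
  · refine ENNReal.rpow_le_rpow ?_ (by norm_num)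
    have e3 : ∀ z', ∫⁻ z, ENNReal.ofReal (Real.exp (∑ p, sh n θ (c ^ 2 * ε) z p *
        sh n θ (c ^ 2 * ε) z' p)) ∂(gI (Fin n)) ≤ ENNReal.ofReal (1 / √(1 - θ)) := by
      intro z'
      refine le_trans (lintegral_mono fun z => ?_) (lint_ff h0 h1 hε' (nsq_le hε' z'))
      unfold ff
      exact ENNReal.ofReal_le_ofReal (Real.exp_le_exp.2 (sh_inner h0 hε' z z'))
    calc ∫⁻ z, ∫⁻ z', ENNReal.ofReal (Real.exp (∑ p, sh n θ (c ^ 2 * ε) z p *
        sh n θ (c ^ 2 * ε) z' p)) ∂(gI (Fin n)) ∂(gI (Fin n))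
        = ∫⁻ z', ∫⁻ z, ENNReal.ofReal (Real.exp (∑ p, sh n θ (c ^ 2 * ε) z p *
        sh n θ (c ^ 2 * ε) z' p)) ∂(gI (Fin n)) ∂(gI (Fin n)) := by
          refine lintegral_congr fun z => lintegral_congr fun z' => ?_
          congr 2
          exact Finset.sum_congr rfl fun p _ => mul_comm _ _
      _ ≤ ∫⁻ _z', ENNReal.ofReal (1 / √(1 - θ)) ∂(gI (Fin n)) := lintegral_mono e3
      _ = ENNReal.ofReal (1 / √(1 - θ)) := by simp

/-! ### The model -/

/-- The free energy in the field `y`. -/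
noncomputable def FH (n : ℕ) (β : ℝ) (y : Fin n → ℝ) (g : Pair n → ℝ) : ℝ :=
  Real.log (∑ σ : Fin n → ℤˣ, Real.exp (β * hamiltonian n g σ + ∑ i, y i * ((σ i : ℤ) : ℝ)))

lemma FH_zero (β : ℝ) (g : Pair n → ℝ) : FH n β 0 g = freeEnergy n β g := by
  unfold FH freeEnergy partitionFn
  simp

lemma FH_pos (β : ℝ) (y : Fin n → ℝ) (g : Pair n → ℝ) :
    0 < ∑ σ : Fin n → ℤˣ, Real.exp (β * hamiltonian n g σ + ∑ i, y i * ((σ i : ℤ) : ℝ)) :=
  Finset.sum_pos (fun _ _ => Real.exp_pos _) Finset.univ_nonempty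

lemma cont_FH (β : ℝ) : Continuous fun p : (Fin n → ℝ) × (Pair n → ℝ) => FH n β p.1 p.2 := by
  unfold FH
  refine Continuous.log ?_ fun p => (FH_pos β p.1 p.2).ne'
  refine continuous_finsetSum _ fun σ _ => Real.continuous_exp.comp ?_
  unfold hamiltonian
  fun_prop

lemma unit_sq (u : ℤˣ) : ((u : ℤ) : ℝ) ^ 2 = 1 := by
  rcases Int.units_eq_one_or u with h | h <;> simp [h]

/-- The field is dominated by the rank one perturbation. -/
lemma FH_le (hn : 1 ≤ n) {β J v ε : ℝ} (hβ : 0 < β) (hJ : 0 < J) (hv : 0 ≤ v) (hε : 0 < ε)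
    (z : Fin n → ℝ) (g : Pair n → ℝ) :
    FH n β (√v • z) g ≤ freeEnergy n β (g + sh n (J ^ 2) ε z) +
      v / (2 * (β * J)) * ∑ i, z i ^ 2 + (v * ε / (2 * (β * J)) + β * J / 2) := by
  have hn0 : (0 : ℝ) < n := by exact_mod_cast hn
  obtain ⟨N, hN⟩ : ∃ N, N = ∑ i, z i ^ 2 := ⟨_, rfl⟩
  have hN0 : 0 ≤ N := by rw [hN]; exact Finset.sum_nonneg fun i _ => sq_nonneg _
  have hD : 0 < ε + N := by linarith
  have key : ∀ σ : Fin n → ℤˣ, β * hamiltonian n g σ + ∑ i, (√v • z) i * ((σ i : ℤ) : ℝ) ≤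
      β * hamiltonian n (g + sh n (J ^ 2) ε z) σ +
        (v / (2 * (β * J)) * N + (v * ε / (2 * (β * J)) + β * J / 2)) := by
    intro σ
    obtain ⟨a, ha⟩ : ∃ a, a = ∑ i, z i * ((σ i : ℤ) : ℝ) := ⟨_, rfl⟩
    have e1 : ∑ i, (√v • z) i * ((σ i : ℤ) : ℝ) = √v * a := by
      rw [ha, Finset.mul_sum]
      refine Finset.sum_congr rfl fun i _ => ?_
      rw [Pi.smul_apply, smul_eq_mul]
      ring
    have e2 : hamiltonian n (g + sh n (J ^ 2) ε z) σ = hamiltonian n g σ +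
        J / (ε + N) * ((a ^ 2 - N) / 2) := by
      have h1 : ∑ p : Pair n, (z p.1.1 * ((σ p.1.1 : ℤ) : ℝ)) * (z p.1.2 * ((σ p.1.2 : ℤ) : ℝ)) =
          (a ^ 2 - N) / 2 := by
        rw [pair_sq fun i => z i * ((σ i : ℤ) : ℝ), ha, hN]
        congr 2
        refine Finset.sum_congr rfl fun i _ => ?_
        rw [mul_pow, unit_sq, mul_one]
      have h2 : √(J ^ 2 * n) = J * √n := by
        rw [Real.sqrt_mul (sq_nonneg J), Real.sqrt_sq hJ.le]
      have h3 : √(n : ℝ) ≠ 0 := (Real.sqrt_pos.2 hn0).ne'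
      unfold hamiltonian
      rw [← h1, Finset.mul_sum, Finset.mul_sum, Finset.mul_sum, ← Finset.sum_add_distrib]
      refine Finset.sum_congr rfl fun p _ => ?_
      unfold sh
      rw [Pi.add_apply, h2, ← hN]
      field_simp
    rw [e1, e2]
    have h4 : √v * a ≤ β * (J / (ε + N) * (a ^ 2 / 2)) + v * (ε + N) / (2 * (β * J)) := by
      have hb : 0 < β * J := mul_pos hβ hJ
      have h5 : 0 ≤ (β * J * a - √v * (ε + N)) ^ 2 / (2 * (β * J) * (ε + N)) := by positivity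
      have h6 : (β * J * a - √v * (ε + N)) ^ 2 / (2 * (β * J) * (ε + N)) =
          β * (J / (ε + N) * (a ^ 2 / 2)) + √v ^ 2 * (ε + N) / (2 * (β * J)) - √v * a := by
        field_simp
        ring
      rw [Real.sq_sqrt hv] at h6
      linarith
    have h7 : β * (J / (ε + N) * (N / 2)) ≤ β * J / 2 := by
      have : J / (ε + N) * (N / 2) ≤ J / 2 := by
        rw [div_mul_div_comm, div_le_div_iff₀ (by positivity) (by positivity)]
        nlinarith [mul_pos hJ hε]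
      calc β * (J / (ε + N) * (N / 2)) ≤ β * (J / 2) := mul_le_mul_of_nonneg_left this hβ.le
        _ = β * J / 2 := by ring
    have h8 : β * (hamiltonian n g σ + J / (ε + N) * ((a ^ 2 - N) / 2)) =
        β * hamiltonian n g σ + β * (J / (ε + N) * (a ^ 2 / 2)) - β * (J / (ε + N) * (N / 2)) := by
      ring
    have h9 : v * (ε + N) / (2 * (β * J)) = v / (2 * (β * J)) * N + v * ε / (2 * (β * J)) := by
      ring
    rw [h8]
    linarith
  rw [← hN]
  unfold FH freeEnergy partitionFn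
  have hp : 0 < ∑ σ : Fin n → ℤˣ,
      Real.exp (β * hamiltonian n (g + sh n (J ^ 2) ε z) σ) :=
    Finset.sum_pos (fun _ _ => Real.exp_pos _) Finset.univ_nonempty
  obtain ⟨W, hW⟩ : ∃ W, W = v / (2 * (β * J)) * N + (v * ε / (2 * (β * J)) + β * J / 2) :=
    ⟨_, rfl⟩
  rw [← hW] at key
  have h1 : ∑ σ : Fin n → ℤˣ,
      Real.exp (β * hamiltonian n g σ + ∑ i, (√v • z) i * ((σ i : ℤ) : ℝ)) ≤
      (∑ σ : Fin n → ℤˣ, Real.exp (β * hamiltonian n (g + sh n (J ^ 2) ε z) σ)) * Real.exp W := by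
    rw [Finset.sum_mul]
    refine Finset.sum_le_sum fun σ _ => ?_
    rw [← Real.exp_add]
    exact Real.exp_le_exp.2 (key σ)
  have h2 := Real.log_le_log (FH_pos β (√v • z) g) h1
  rw [Real.log_mul hp.ne' (Real.exp_pos _).ne', Real.log_exp] at h2
  linarith

lemma eg_exp_free (n : ℕ) (β x : ℝ) : EG fun g : Pair n → ℝ => Real.exp (x * freeEnergy n β g) := by
  obtain ⟨A, B, hB, h⟩ := H863.free_abs n β
  refine ⟨Real.measurable_exp.comp ((H863.cont_freeEnergy n β).measurable.const_mul x),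
    Real.exp (|x| * A), |x| * (B * Fintype.card (Pair n)), (Real.exp_pos _).le, by positivity,
    fun g => ?_⟩
  rw [abs_of_pos (Real.exp_pos _), ← Real.exp_add]
  apply Real.exp_le_exp.2
  have h1 : ∑ p, |g p| ≤ Fintype.card (Pair n) * ‖g‖ := by
    calc ∑ p, |g p| ≤ ∑ _p : Pair n, ‖g‖ := Finset.sum_le_sum fun p _ => by
          have := norm_le_pi_norm g p
          rwa [Real.norm_eq_abs] at this
      _ = _ := by rw [Finset.sum_const, Finset.card_univ, nsmul_eq_mul]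
  calc x * freeEnergy n β g ≤ |x * freeEnergy n β g| := le_abs_self _
    _ = |x| * |freeEnergy n β g| := abs_mul _ _
    _ ≤ |x| * (A + B * ∑ p, |g p|) := mul_le_mul_of_nonneg_left (h g) (abs_nonneg x)
    _ ≤ |x| * (A + B * (Fintype.card (Pair n) * ‖g‖)) := by gcongr
    _ = |x| * A + |x| * (B * Fintype.card (Pair n)) * ‖g‖ := by ring

/-- **Contiguity.** -/
theorem contig (hn : 1 ≤ n) {β J v x : ℝ} (hβ : 0 < β) (hJ : 0 < J) (hJ1 : J < 1) (hv : 0 ≤ v)
    (hx : 0 ≤ x) (hρ : x * v / (β * J) < 1) :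
    Integrable (fun p : (Fin n → ℝ) × (Pair n → ℝ) => Real.exp (x * FH n β (√v • p.1) p.2))
      ((gI (Fin n)).prod (disorder n)) ∧
    ∫ z, ∫ g, Real.exp (x * FH n β (√v • z) g) ∂(disorder n) ∂(gI (Fin n)) ≤
      Real.exp (x * (v / (2 * (β * J)) + β * J / 2)) * ((√(1 - x * v / (β * J)) ^ n)⁻¹ *
        (√(∫ g, Real.exp (2 * x * freeEnergy n β g) ∂(disorder n)) *
          √(1 / √(1 - J ^ 2)))) := by
  have hb : 0 < β * J := mul_pos hβ hJ
  have hdis : disorder n = gI (Pair n) := rfl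
  have hJ2 : J ^ 2 < 1 := by nlinarith
  have h1 : ∀ z g, x * FH n β (√v • z) g ≤ x * freeEnergy n β (g + sh n (J ^ 2) 1 z) +
      x * v / (β * J) / 2 * ∑ i, z i ^ 2 + x * (v / (2 * (β * J)) + β * J / 2) := by
    intro z g
    have h2 := mul_le_mul_of_nonneg_left (FH_le hn (J := J) (v := v) (ε := 1) hβ hJ hv one_pos z g) hx
    refine h2.trans (le_of_eq ?_)
    field_simp
  have h3 := contig_abs (n := n) (sq_nonneg J) hJ2 hρ one_pos
    (H863.cont_freeEnergy n β).measurable h1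
  obtain ⟨R, hR⟩ : ∃ R, R = ∫ g, Real.exp (2 * x * freeEnergy n β g) ∂(disorder n) := ⟨_, rfl⟩
  have hR0 : 0 ≤ R := by rw [hR]; exact integral_nonneg fun _ => (Real.exp_pos _).le
  have e1 : ∫⁻ g, ENNReal.ofReal (Real.exp (2 * x * freeEnergy n β g)) ∂(gI (Pair n)) =
      ENNReal.ofReal R := by
    rw [hR, hdis, ← ofReal_integral_eq_lintegral_ofReal (eg_exp_free n β (2 * x)).integrable
      (Filter.Eventually.of_forall fun x => (Real.exp_pos _).le)]
  have hS : 0 ≤ 1 / √(1 - J ^ 2) := by positivity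
  rw [e1, ENNReal.ofReal_rpow_of_nonneg hR0 (by norm_num),
    ENNReal.ofReal_rpow_of_nonneg hS (by norm_num), ← Real.sqrt_eq_rpow, ← Real.sqrt_eq_rpow,
    ← ENNReal.ofReal_mul (Real.sqrt_nonneg _), ← ENNReal.ofReal_mul (by positivity),
    ← ENNReal.ofReal_mul (Real.exp_pos _).le] at h3
  have mF : Measurable fun p : (Fin n → ℝ) × (Pair n → ℝ) => Real.exp (x * FH n β (√v • p.1) p.2) := by
    have hc : Continuous fun p : (Fin n → ℝ) × (Pair n → ℝ) => FH n β (√v • p.1) p.2 :=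
      (cont_FH β).comp ((continuous_fst.const_smul (√v)).prodMk continuous_snd)
    exact (Real.continuous_exp.comp (hc.const_mul x)).measurable
  have h4 : ∫⁻ p, ENNReal.ofReal (Real.exp (x * FH n β (√v • p.1) p.2))
      ∂((gI (Fin n)).prod (disorder n)) =
      ∫⁻ z, ∫⁻ g, ENNReal.ofReal (Real.exp (x * FH n β (√v • z) g)) ∂(gI (Pair n))
        ∂(gI (Fin n)) := by
    rw [hdis, lintegral_prod _ mF.ennreal_ofReal.aemeasurable]
  have hI : Integrable (fun p : (Fin n → ℝ) × (Pair n → ℝ) => Real.exp (x * FH n β (√v • p.1) p.2))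
      ((gI (Fin n)).prod (disorder n)) := by
    refine ⟨mF.aestronglyMeasurable, ?_⟩
    rw [hasFiniteIntegral_iff_ofReal (Filter.Eventually.of_forall fun x => (Real.exp_pos _).le), h4]
    exact h3.trans_lt ENNReal.ofReal_lt_top
  refine ⟨hI, ?_⟩
  rw [← integral_prod _ hI]
  rw [← h4, ← ofReal_integral_eq_lintegral_ofReal hI
    (Filter.Eventually.of_forall fun x => (Real.exp_pos _).le)] at h3
  rw [← hR]
  exact (ENNReal.ofReal_le_ofReal_iff (by positivity)).1 h3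

/-- **Contiguity, logarithmic form**: with `Φ(x, v) = (1 / x) log E exp (x F_v)` and
`A = (2 β / (n v)) (Φ(x, v) - Φ(x, 0))` it reads
`(x n v / (2 β)) (A - 1) ≤ (1/2) log E exp (2 x F) - log E exp (x F) + small`. -/
theorem contig_log (hn : 1 ≤ n) {β v x : ℝ} (hβ : 0 < β) (hv : 0 ≤ v)
    (hx : 0 ≤ x) (hxv : 4 * (x * v) ≤ β) :
    Real.log (∫ z, ∫ g, Real.exp (x * FH n β (√v • z) g) ∂(disorder n) ∂(gI (Fin n))) ≤
      1 / 2 * Real.log (∫ g, Real.exp (2 * x * freeEnergy n β g) ∂(disorder n)) +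
      n * (x * v / (2 * β)) + 4 * n * (x * v / β) ^ 2 + (x * β + Real.log (2 * n)) := by
  have hn1 : (1 : ℝ) ≤ n := by exact_mod_cast hn
  have hn0 : (0 : ℝ) < n := by linarith
  obtain ⟨J, hJ⟩ : ∃ J : ℝ, J = 1 - 1 / (2 * n) := ⟨_, rfl⟩
  have h1 : 1 / (2 * (n : ℝ)) ≤ 1 / 2 := by
    rw [div_le_div_iff₀ (by positivity) (by norm_num)]
    linarith
  have h2 : 0 < 1 / (2 * (n : ℝ)) := by positivity
  have hJh : 1 / 2 ≤ J := by linarith
  have hJ0 : 0 < J := by linarith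
  have hJ1 : J < 1 := by linarith
  obtain ⟨w, hw⟩ : ∃ w, w = x * v / β := ⟨_, rfl⟩
  have hw0 : 0 ≤ w := by rw [hw]; positivity
  have hw4 : w ≤ 1 / 4 := by
    rw [hw, div_le_iff₀ hβ]
    linarith
  obtain ⟨ρ, hρ⟩ : ∃ ρ, ρ = x * v / (β * J) := ⟨_, rfl⟩
  have hρw : ρ = w * (1 / J) := by
    rw [hρ, hw]
    field_simp
  have hJinv : 1 / J ≤ 1 + 1 / n := by
    rw [div_le_iff₀ hJ0, hJ]
    have h3 : (1 + 1 / (n : ℝ)) * (1 - 1 / (2 * n)) = 1 + 1 / (2 * n) - 1 / (2 * n ^ 2) := by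
      field_simp
      ring
    rw [h3]
    have h4 : 1 / (2 * (n : ℝ) ^ 2) ≤ 1 / (2 * n) := by
      apply one_div_le_one_div_of_le (by positivity)
      nlinarith
    linarith
  have hJinv2 : 1 / J ≤ 2 := by
    rw [div_le_iff₀ hJ0]
    linarith
  have hJi0 : 0 < 1 / J := by positivity
  have hρ0 : 0 ≤ ρ := by rw [hρw]; positivity
  have hρ2 : ρ ≤ 2 * w := by rw [hρw]; nlinarith
  have hρh : ρ ≤ 1 / 2 := by linarith
  have hρ1 : x * v / (β * J) < 1 := by rw [← hρ]; linarith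
  obtain ⟨hI, hC⟩ := contig hn hβ hJ0 hJ1 hv hx hρ1
  have hpos : 0 < ∫ z, ∫ g, Real.exp (x * FH n β (√v • z) g) ∂(disorder n) ∂(gI (Fin n)) := by
    have hprob : IsProbabilityMeasure (disorder n) := by
      unfold disorder
      infer_instance
    rw [← integral_prod _ hI]
    exact integral_exp_pos hI
  have hRp : 0 < ∫ g, Real.exp (2 * x * freeEnergy n β g) ∂(disorder n) := by
    have hprob : IsProbabilityMeasure (disorder n) := by
      unfold disorder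
      infer_instance
    exact integral_exp_pos (eg_exp_free n β (2 * x)).integrable
  have h3 := Real.log_le_log hpos hC
  rw [← hρ] at h3
  have hs1 : 0 < √(1 - ρ) := Real.sqrt_pos.2 (by linarith)
  have hJ2 : 0 < 1 - J ^ 2 := by nlinarith
  have hs2 : 0 < √(1 - J ^ 2) := Real.sqrt_pos.2 hJ2
  rw [Real.log_mul (Real.exp_pos _).ne' (by positivity), Real.log_exp,
    Real.log_mul (by positivity) (by positivity), Real.log_inv, Real.log_pow,
    Real.log_sqrt (by linarith), Real.log_mul (by positivity) (by positivity),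
    Real.log_sqrt hRp.le, Real.log_sqrt (by positivity), one_div, Real.log_inv,
    Real.log_sqrt hJ2.le] at h3
  -- the logarithms
  have h4 : -(ρ + 2 * ρ ^ 2) ≤ Real.log (1 - ρ) := by
    have h17 : 0 < 1 - ρ := by linarith
    have h5 := Real.one_sub_inv_le_log_of_pos h17
    refine le_trans ?_ h5
    have h18 : (1 - ρ)⁻¹ ≤ 1 + (ρ + 2 * ρ ^ 2) := by
      rw [inv_le_iff_one_le_mul₀ h17]
      have h19 : (1 - ρ) * (1 + (ρ + 2 * ρ ^ 2)) = 1 + ρ ^ 2 * (1 - 2 * ρ) := by ring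
      rw [mul_comm, h19]
      have h20 : 0 ≤ ρ ^ 2 * (1 - 2 * ρ) := mul_nonneg (sq_nonneg _) (by linarith)
      linarith
    linarith
  have h6 : -Real.log (2 * n) ≤ Real.log (1 - J ^ 2) := by
    rw [← Real.log_inv]
    apply Real.log_le_log (by positivity)
    rw [← one_div]
    have : J ^ 2 ≤ J := by nlinarith
    linarith
  have h7 : n / 2 * (ρ + 2 * ρ ^ 2) ≤ n * (x * v / (2 * β)) + w / 2 + 4 * n * w ^ 2 := by
    have h8 : n / 2 * ρ ≤ n / 2 * (w * (1 + 1 / n)) := by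
      rw [hρw]
      gcongr
    have h9 : n / 2 * (w * (1 + 1 / n)) = n * (x * v / (2 * β)) + w / 2 := by
      rw [hw]
      field_simp
    have h10 : n / 2 * (2 * ρ ^ 2) ≤ n / 2 * (2 * (2 * w) ^ 2) := by gcongr
    have h21 : n / 2 * (ρ + 2 * ρ ^ 2) = n / 2 * ρ + n / 2 * (2 * ρ ^ 2) := by ring
    have h22 : n / 2 * (2 * (2 * w) ^ 2) = 4 * n * w ^ 2 := by ring
    linarith
  have h11 : x * (v / (2 * (β * J)) + β * J / 2) ≤ w + x * β / 2 := by
    have h12 : x * (v / (2 * (β * J)) + β * J / 2) = ρ / 2 + x * β * J / 2 := by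
      rw [hρ]
      field_simp
    have h13 : x * β * J ≤ x * β * 1 := by gcongr
    linarith
  have h14 : Real.log 2 ≤ Real.log (2 * n) := Real.log_le_log (by norm_num) (by linarith)
  have h15 := Real.log_two_gt_d9
  have h16 : 0 ≤ x * β := by positivity
  rw [← hw]
  have h23 : -(n * (Real.log (1 - ρ) / 2)) ≤ n / 2 * (ρ + 2 * ρ ^ 2) := by
    have h24 := mul_le_mul_of_nonneg_left h4 (show (0 : ℝ) ≤ n / 2 by positivity)
    linarith
  linarith

end Vale.Agent.P146.H877
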