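import Vale.Agent.P146.H877.Contig
import Vale.Agent.P146.H641.Tail

/-!
# P146: contiguity and the variance

If the response of the exponential moment to a Gaussian field of variance `v` exceeds
`n x v / (2 β)` by `2 log n`, then the standard deviation of the free energy is at least
`1 / (36 x) - 1`.
-/

open MeasureTheory ProbabilityTheory Filter Topology

namespace Vale.Agent.P146.H877

open Vale.Agent.P157.Lv Vale.Agent.P146

variable (n : ℕ) (β : ℝ)

/-- `log E exp (x F_v)`, `F_v` the free energy in a Gaussian field of variance `v`. -/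
noncomputable def LPhi (x v : ℝ) : ℝ :=
  Real.log (∫ z, ∫ g, Real.exp (x * FH n β (√v • z) g) ∂(disorder n) ∂(gI (Fin n)))

lemma LPhi_zero (x : ℝ) :
    LPhi n β x 0 = Real.log (∫ g, Real.exp (x * freeEnergy n β g) ∂(disorder n)) := by
  unfold LPhi
  simp only [Real.sqrt_zero, zero_smul, FH_zero, integral_const, probReal_univ, one_smul]

lemma log_center (x m : ℝ) :
    Real.log (∫ g, Real.exp (x * freeEnergy n β g) ∂(disorder n)) =
      Real.log (∫ g, Real.exp (x * (freeEnergy n β g - m)) ∂(disorder n)) + x * m := by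
  have hprob : IsProbabilityMeasure (disorder n) := by
    unfold disorder
    infer_instance
  have hi := (eg_exp_free n β x).integrable
  have e : (fun g => Real.exp (x * (freeEnergy n β g - m))) =
      fun g => Real.exp (x * freeEnergy n β g) * Real.exp (-(x * m)) := by
    funext g
    rw [← Real.exp_add]
    congr 1
    ring
  have hp : 0 < ∫ g, Real.exp (x * freeEnergy n β g) ∂(disorder n) := integral_exp_pos hi
  rw [e, integral_mul_const, Real.log_mul hp.ne' (Real.exp_pos _).ne', Real.log_exp]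
  ring

/-- Jensen. -/
lemma log_center_nonneg (x : ℝ) :
    0 ≤ Real.log (∫ g, Real.exp (x * (freeEnergy n β g - ∫ h, freeEnergy n β h ∂(disorder n)))
      ∂(disorder n)) := by
  have hprob : IsProbabilityMeasure (disorder n) := by
    unfold disorder
    infer_instance
  obtain ⟨m, hm⟩ : ∃ m, m = ∫ h, freeEnergy n β h ∂(disorder n) := ⟨_, rfl⟩
  rw [← hm]
  have hF : Integrable (freeEnergy n β) (disorder n) := by
    have h1 := (eg_exp_free n β 1).integrable
    have h2 := (eg_exp_free n β (-1)).integrable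
    refine (h1.add h2).mono' (H863.cont_freeEnergy n β).aestronglyMeasurable
      (Eventually.of_forall fun g => ?_)
    simp only [Pi.add_apply, Real.norm_eq_abs]
    rw [abs_le]
    have h3 := Real.add_one_le_exp (1 * freeEnergy n β g)
    have h4 := Real.add_one_le_exp (-1 * freeEnergy n β g)
    have h5 := Real.exp_pos (1 * freeEnergy n β g)
    have h6 := Real.exp_pos (-1 * freeEnergy n β g)
    constructor <;> linarith
  have hi : Integrable (fun g => Real.exp (x * (freeEnergy n β g - m))) (disorder n) := by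
    have e : (fun g => Real.exp (x * (freeEnergy n β g - m))) =
        fun g => Real.exp (x * freeEnergy n β g) * Real.exp (-(x * m)) := by
      funext g
      rw [← Real.exp_add]
      congr 1
      ring
    rw [e]
    exact (eg_exp_free n β x).integrable.mul_const _
  apply Real.log_nonneg
  have hg : Integrable (fun g => x * (freeEnergy n β g - m)) (disorder n) :=
    (hF.sub (integrable_const m)).const_mul x
  have h1 : ∫ g, (x * (freeEnergy n β g - m) + 1) ∂(disorder n) = 1 := by
    rw [integral_add hg (integrable_const _), integral_const_mul,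
      integral_sub hF (integrable_const m), integral_const, integral_const, probReal_univ, ← hm]
    simp
  rw [← h1]
  exact integral_mono (hg.add (integrable_const _)) hi fun g => Real.add_one_le_exp _

/-- Contiguity in terms of the centred exponential moments. -/
theorem contig_center (hn : 1 ≤ n) {v x m : ℝ} (hβ : 0 < β) (hv : 0 ≤ v)
    (hx : 0 ≤ x) (hxv : 4 * (x * v) ≤ β) :
    LPhi n β x v - LPhi n β x 0 ≤ n * (x * v / (2 * β)) + 4 * n * (x * v / β) ^ 2 +
      (x * β + Real.log (2 * n)) +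
      (1 / 2 * Real.log (∫ g, Real.exp (2 * x * (freeEnergy n β g - m)) ∂(disorder n)) -
        Real.log (∫ g, Real.exp (x * (freeEnergy n β g - m)) ∂(disorder n))) := by
  have h1 := contig_log hn hβ hv hx hxv
  rw [LPhi_zero, log_center n β x m]
  rw [log_center n β (2 * x) m] at h1
  unfold LPhi
  linarith

/-- **The response bounds the standard deviation from below.** -/
theorem sd_of_response (hn : 1 ≤ n) {v x : ℝ} (hβ : 0 < β) (hv : 0 ≤ v)
    (hx : 0 < x) (hxv : 4 * (x * v) ≤ β)
    (h : n * (x * v / (2 * β)) + 4 * n * (x * v / β) ^ 2 + (x * β + Real.log (2 * n)) + 3 / 4 <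
      LPhi n β x v - LPhi n β x 0) :
    1 / (36 * x) - 1 ≤ Real.sqrt (Var[freeEnergy n β; disorder n]) := by
  have h1 := contig_center n β hn (m := ∫ h, freeEnergy n β h ∂(disorder n)) hβ hv hx.le hxv
  have h2 := log_center_nonneg n β x
  have h3 := H641.sd_of_tail n β (x := 2 * x) (by positivity) (by linarith)
  have e : 18 * (2 * x) = 36 * x := by ring
  rwa [e] at h3

/-- A power lower bound for the variance with every exponent below `1 / 3`, from the response. -/
theorem low_of_response {β : ℝ} (hβ : 0 < β)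
    (H : ∀ e : ℝ, 0 < e → ∀ᶠ n : ℕ in atTop, ∃ x v : ℝ, 0 < x ∧ x ≤ (n : ℝ) ^ (-(1 / 6) + e) ∧
      0 ≤ v ∧ n * (x * v) ^ 2 ≤ 1 ∧
      n * (x * v / (2 * β)) + 2 * Real.log n ≤ LPhi n β x v - LPhi n β x 0) :
    ∀ γ : ℝ, γ < 1 / 3 → ∀ᶠ n : ℕ in atTop, (n : ℝ) ^ γ ≤ Var[freeEnergy n β; disorder n] := by
  intro γ hγ
  obtain ⟨e, he⟩ : ∃ e : ℝ, e = min ((1 / 3 - γ) / 4) (1 / 12) := ⟨_, rfl⟩
  have he0 : 0 < e := by
    rw [he]
    exact lt_min (by linarith) (by norm_num)
  have he1 : e ≤ (1 / 3 - γ) / 4 := by rw [he]; exact min_le_left _ _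
  have he2 : e ≤ 1 / 12 := by rw [he]; exact min_le_right _ _
  have hlog : Tendsto (fun n : ℕ => Real.log n) atTop atTop :=
    Real.tendsto_log_atTop.comp tendsto_natCast_atTop_atTop
  have hpow : Tendsto (fun n : ℕ => (n : ℝ) ^ (1 / 6 - e)) atTop atTop :=
    (tendsto_rpow_atTop (by linarith)).comp tendsto_natCast_atTop_atTop
  have hpow2 : Tendsto (fun n : ℕ => (n : ℝ) ^ e) atTop atTop :=
    (tendsto_rpow_atTop he0).comp tendsto_natCast_atTop_atTop
  filter_upwards [H e he0, eventually_ge_atTop 1,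
    hlog.eventually_gt_atTop (4 / β ^ 2 + β + Real.log 2 + 3 / 4),
    hpow.eventually_ge_atTop 72, hpow2.eventually_ge_atTop 72,
    (tendsto_natCast_atTop_atTop (R := ℝ)).eventually_ge_atTop (16 / β ^ 2)] with
    n hx hn h1 h2 h3 h4
  obtain ⟨x, v, hx0, hxn, hv, hxv, hr⟩ := hx
  have hn1 : (1 : ℝ) ≤ n := by exact_mod_cast hn
  have hn0 : (0 : ℝ) < n := by linarith
  have hx1 : x ≤ 1 := hxn.trans (Real.rpow_le_one_of_one_le_of_nonpos hn1 (by linarith))
  have hxv4 : 4 * (x * v) ≤ β := by
    have h5 : (x * v) ^ 2 ≤ (β / 4) ^ 2 := by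
      have h6 : 16 / β ^ 2 * (x * v) ^ 2 ≤ n * (x * v) ^ 2 := by gcongr
      have h7 : 16 / β ^ 2 * (x * v) ^ 2 ≤ 1 := h6.trans hxv
      rw [div_mul_eq_mul_div, div_le_one (by positivity)] at h7
      nlinarith
    have h8 := abs_le_of_sq_le_sq' h5 (by positivity)
    linarith [h8.2]
  have h5 := sd_of_response n β hn hβ hv hx0 hxv4 (by
    have e1 : Real.log (2 * n) = Real.log 2 + Real.log n :=
      Real.log_mul (by norm_num) hn0.ne'
    have e2 : 4 * n * (x * v / β) ^ 2 ≤ 4 / β ^ 2 := by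
      have : 4 * n * (x * v / β) ^ 2 = 4 / β ^ 2 * (n * (x * v) ^ 2) := by
        field_simp
      rw [this]
      calc 4 / β ^ 2 * (n * (x * v) ^ 2) ≤ 4 / β ^ 2 * 1 := by gcongr
        _ = _ := mul_one _
    have e3 : x * β ≤ β := by nlinarith
    linarith)
  have h6 : (n : ℝ) ^ (1 / 6 - e) ≤ 1 / x := by
    rw [le_div_iff₀ hx0]
    calc (n : ℝ) ^ (1 / 6 - e) * x ≤ (n : ℝ) ^ (1 / 6 - e) * (n : ℝ) ^ (-(1 / 6) + e) := by gcongr
      _ = 1 := by
          rw [← Real.rpow_add hn0]
          norm_num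
  have h7 : 1 / (36 * x) = 1 / x / 36 := by
    field_simp
  rw [h7] at h5
  have h8 : (n : ℝ) ^ (1 / 6 - e) / 72 ≤ Real.sqrt (Var[freeEnergy n β; disorder n]) := by
    linarith
  have hV := variance_nonneg (freeEnergy n β) (disorder n)
  have h9 : ((n : ℝ) ^ (1 / 6 - e) / 72) ^ 2 ≤ Var[freeEnergy n β; disorder n] := by
    rw [← Real.sq_sqrt hV]
    exact pow_le_pow_left₀ (by positivity) h8 2
  refine le_trans ?_ h9
  have h10 : (n : ℝ) ^ γ ≤ (n : ℝ) ^ (1 / 3 - 4 * e) :=
    Real.rpow_le_rpow_of_exponent_le hn1 (by linarith)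
  refine h10.trans ?_
  have e4 : ((n : ℝ) ^ (1 / 6 - e)) ^ 2 = (n : ℝ) ^ (1 / 3 - 4 * e) * ((n : ℝ) ^ e) ^ 2 := by
    rw [← Real.rpow_natCast, ← Real.rpow_natCast, ← Real.rpow_mul hn0.le, ← Real.rpow_mul hn0.le,
      ← Real.rpow_add hn0]
    congr 1
    push_cast
    ring
  rw [div_pow, e4, mul_div_assoc]
  have h11 : 0 ≤ (n : ℝ) ^ (1 / 3 - 4 * e) := by positivity
  have h12 : 1 ≤ ((n : ℝ) ^ e) ^ 2 / 72 ^ 2 := by
    rw [one_le_div (by norm_num)]
    exact pow_le_pow_left₀ (by norm_num) h3 2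
  nlinarith

end Vale.Agent.P146.H877
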