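import Vale.Agent.P146.H877.LcZ2
import Vale.Agent.P146.H317.C3Sk

/-!
# P146: the second moment of the overlap from above at one point, all sizes put in

`z2_point`: `rr_z2` with the third order term of helper317's `c3_sk` and the errors of helper615's
`xe_sk`. The numbers are: `U` (a-priori size of the overlap), `θ`, `I` (the increment), `rk`,
`rk1`, `k4`, `p0` (the probability that the overlap exceeds `l0`), `pT`.
-/

open MeasureTheory ProbabilityTheory Set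

namespace Vale.Agent.P146.H877

open Vale.Agent.P157.Lv hiding Dep
open Vale.Agent.P146.H425 Vale.Agent.P146.H646
open Vale.Agent.P146.H325 hiding cb cf
open Vale.Agent.P146.H196 Vale.Agent.P146.H246 Vale.Agent.P146.H347
  Vale.Agent.P146.H816 Vale.Agent.P146.H119 Vale.Agent.P146.H475 Vale.Agent.P146.H418
  Vale.Agent.P146.H317 Vale.Agent.P146.H643 Vale.Agent.P146.H75

set_option linter.unusedSectionVars false

variable {L : Law}

/-- the error of one point in the zone `Z2` -/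
noncomputable def E2z (b x kp η U θ wf l0 del I n m rk rk1 k4 p0 pT : ℝ) : ℝ :=
  (H317.E3c b kp η U θ wf l0 del (I / n) rk1 k4 p0 pT +
    (H615.E1c b x kp η U wf θ rk + I / (n - m))) / (b * kp) ^ 2

/-- `CC` of helper412 and of helper643 -/
lemma ex_CC_le {S : Finset (Fin L.n)} {t u : ℝ} :
    L.ex' t u (H412.CC L S t u) = H643.CC L S t u := by
  unfold H643.CC H412.CC
  simp only [div_eq_inv_mul]
  rfl

/-- **The second moment of the overlap from above at one point of the zone `Z2`.** -/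
theorem z2_point (hA : H320.Adm L) (hη1 : L.η ≤ 1 / 2) (hs : L.s ≠ 0) (hx0 : 0 < L.x)
    (hx1 : L.x < 1) {r0 : ℝ} (hc : L.c = L.s ^ 2 * L.n * (1 - (1 - L.x) * r0))
    (hk : 0 < L.b * (1 - (1 - L.x) * r0)) {m : ℕ} (hm1 : 1 ≤ m) (hmn : m < L.n) {T u : ℝ}
    (hT0 : 0 ≤ T) (hT1 : T ≤ 1) (hu0 : 0 < u) {i0 : Fin L.n}
    (hi0 : i0.1 + m = L.n) {a1 e' e3 a2 w2 E0 : ℝ}
    (hAt : 1 - e' ≤ L.b * (1 - (1 - L.x) * r0) * (1 - T) ^ 2)
    (ha : 1 - 1 / (L.b * (1 - (1 - L.x) * r0)) ^ 2 ≤ a1) (he : e' + e3 ≤ 1 / 2)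
    {U θ l0 del I rk rk1 k4 p0 pT : ℝ}
    (hl : H317.CBc L.b L.η * (528 * l0 + 16 * del) ≤
      (L.b * (1 - (1 - L.x) * r0)) ^ 2 * (e3 * (L.b * L.x)))
    (hwU : u * L.vp / L.b ^ 2 ≤ U) (hU0 : 0 < U) (hU1 : U ≤ 1)
    (hxb : 8 * (L.x ^ 2 * L.b ^ 2) ≤ 1)
    (hUu : L.ex' (1 - T) u (H412.CC L Finset.univ (1 - T) u) ≤ U ^ 2)
    (hUs : L.ex' (1 - T) u (H412.CC L (Sn L.n m) (1 - T) u) ≤ U ^ 2)
    (hUS : L.ex' (1 - T) u (fun z => H412.CC L (Sn L.n m) (1 - T) u z ^ 2) ≤ U ^ 4)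
    (hθ : 5 / √m + 2 * |L.lam / ((1 - L.x) * (L.s ^ 2 * L.n))| +
      3 * ((|r0| + 1) * √(H615.PstL L (1 - T) u)) / √U ≤ θ)
    (hl0 : 0 < l0) (hlU : l0 ≤ U) (hdel : 0 < del) (hdelU : del ≤ U)
    (hI : H320.incL L (H418.cb (1 - T)) (H418.cf L.vp u) (Sn L.n m)
      (Kset (Sn L.n m) {true} {true}) (Kset (insert i0 (Sn L.n m)) {true} {true}) ≤ I)
    (hrk : L.rk (Sn L.n m) (1 - T) u ≤ rk)
    (hrk1 : L.rk (Sn L.n (m - 1)) (1 - T) u ≤ rk1)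
    (hk4 : H320.rbL L (H418.cb (1 - T)) (H418.cf L.vp u) (Sn L.n (m - 1))
      (Kset (Sn L.n (m - 1)) {true} {true}) ≤ (L.n : ℝ) ^ 4 * k4)
    (hp0 : L.ex' (1 - T) u (ind l0 (L.Q (Sn L.n m) (1 - T) u)) ≤ p0)
    (hp1 : L.ex' (1 - T) u (ind (U ^ 2) (H412.CC L (Sn L.n (m - 1)) (1 - T) u)) ≤ pT)
    (hp2 : L.ex' (1 - T) u (ind U (L.Q (Sn L.n m) (1 - T) u)) ≤ pT)
    (ha2 : 0 ≤ a2) (ha12 : a1 ≤ a2) (hw2 : u * L.vp / L.b ^ 2 ≤ w2)
    (hE : E2z L.b L.x (1 - (1 - L.x) * r0) L.η U θ (u * L.vp / L.b ^ 2) l0 del I L.n m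
      rk rk1 k4 p0 pT ≤ E0) :
    L.rr (Sn L.n m) (1 - T) u ≤ 16 * (w2 + E0) / (L.b * L.x) + 16 * (a2 / (L.b * L.x)) ^ 2 +
      4 * (L.η * (2 + L.η)) ^ 2 * U ^ 2 + 2 * rk := by
  have hk1 : 0 ≤ 1 - (1 - L.x) * r0 := by
    by_contra h
    push Not at h
    have := mul_neg_of_pos_of_neg hA.b0 h
    linarith
  have hA2 : 0 < (L.b * (1 - (1 - L.x) * r0)) ^ 2 := by positivity
  have hc3 := c3_sk (L := L) hA hη1 hs hx1 hc hk1 hm1 hmn.le hi0 (t := 1 - T)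
    (by linarith) (by linarith) hu0.le (φ := fun _ => 1) measurable_const (P0 := 1)
    (fun _ _ => zero_le_one) (fun _ _ => le_rfl) hwU hU0 hU1 hxb hUu hUS hθ hl0 hlU hdel hdelU
    hI hrk1 hk4 hp0 hp1 hp2
  have hxe := H615.xe_sk (L := L) hA hη1 hk1 hmn.le (t := 1 - T) (by linarith) (by linarith)
    hu0.le hwU hU0 hU1 hxb hUu hUS hrk hθ (P := 1) (Lr := 0) zero_le_one le_rfl hi0 hI
  simp only [one_mul] at hc3
  rw [one_mul, one_mul] at hxe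
  have hq0 : 0 ≤ L.qq (Sn L.n m) (1 - T) u :=
    H615.ex_nonneg (wt_L hA (1 - T) u) fun z => sq_nonneg _
  have hC3 : C3U L r0 (fun _ => 1) m (1 - T) u i0 ≤
      (L.b * (1 - (1 - L.x) * r0)) ^ 2 * (e3 * (L.b * L.x) * L.qq (Sn L.n m) (1 - T) u) +
      H317.E3c L.b (1 - (1 - L.x) * r0) L.η U θ (u * L.vp / L.b ^ 2) l0 del (I / L.n) rk1 k4
        p0 pT := by
    have h1 : H317.CBc L.b L.η * (528 * l0 + 16 * del) * L.qq (Sn L.n m) (1 - T) u ≤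
        (L.b * (1 - (1 - L.x) * r0)) ^ 2 * (e3 * (L.b * L.x)) * L.qq (Sn L.n m) (1 - T) u :=
      mul_le_mul_of_nonneg_right hl hq0
    have h2 : C3U L r0 (fun _ => 1) m (1 - T) u i0 ≤
        H317.CBc L.b L.η * (528 * l0 + 16 * del) * L.qq (Sn L.n m) (1 - T) u +
        H317.E3c L.b (1 - (1 - L.x) * r0) L.η U θ (u * L.vp / L.b ^ 2) l0 del (I / L.n) rk1 k4
        p0 pT := hc3
    refine h2.trans ?_
    have e : (L.b * (1 - (1 - L.x) * r0)) ^ 2 * (e3 * (L.b * L.x) *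
        L.qq (Sn L.n m) (1 - T) u) = (L.b * (1 - (1 - L.x) * r0)) ^ 2 * (e3 * (L.b * L.x)) *
        L.qq (Sn L.n m) (1 - T) u := by ring
    rw [e]
    linarith
  have hE' : H317.E3c L.b (1 - (1 - L.x) * r0) L.η U θ (u * L.vp / L.b ^ 2) l0 del (I / L.n)
      rk1 k4 p0 pT / (L.b * (1 - (1 - L.x) * r0)) ^ 2 + XE L r0 1 0 m (1 - T) u i0 ≤ E0 := by
    refine le_trans ?_ hE
    unfold E2z
    rw [add_div]
    refine add_le_add le_rfl ?_
    refine le_trans (le_of_eq ?_) (hxe.trans (le_of_eq ?_))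
    · unfold XE
      rw [one_mul]
    · ring
  have key := rr_z2 hA hη1 hs hx0 hx1 hc hk hmn hT0 hT1 hu0 hi0 hAt ha he hC3 ha2 ha12 hw2 hE'
  refine key.trans ?_
  have h3 : H643.CC L (Sn L.n m) (1 - T) u ≤ U ^ 2 := by
    rw [← ex_CC_le]
    exact hUs
  have h4 := mul_le_mul_of_nonneg_left h3
    (show 0 ≤ 4 * (L.η * (2 + L.η)) ^ 2 by positivity)
  have h5 : 2 * L.rk (Sn L.n m) (1 - T) u ≤ 2 * rk := by linarith
  linarith

end Vale.Agent.P146.H877
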