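import Vale.Agent.P146.H877.LcFar2
import Vale.Agent.P146.H516.BrLc

/-!
# P146: the number of the zone `Z2`

`brLcW`: the probability that the overlap exceeds `κ0 y` in the window of the typical point, from
helper516's `br_lc`; `lcFar2_end`: the second half of the far zone of LC without hypothesis.
-/

open MeasureTheory ProbabilityTheory Filter Set

namespace Vale.Agent.P146.H877

theorem brLcW {b b₁ b₀ q : ℝ} (hb : 1 < b) (hq : 0 < q) (hq0 : 1000 * q ≤ b₀) (hb₀ : b₀ ≤ b₁)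
    (hb₁ : b₁ ≤ 1 / 400) : BrLcW b b₁ b₀ q := by
  intro κ0 hκ A hA
  have hx : H516.Br.BX b₁ b₀ q (1 / 10) (1 / 4) q A κ0 b :=
    ⟨hq, by linarith, hb₀, hb₁, by linarith, by norm_num, hq, by linarith, hA, hκ, hb⟩
  have hb0 : 0 < b₀ := by linarith
  filter_upwards [H516.Br.br_lc hx, eventually_ge_atTop 1, H470.ev_log hb0 (Real.log 2)] with n h1
    h2 h4
  intro y V a hd T hT hT2 u hu hu1 m hm hm2
  have hn : (1 : ℝ) ≤ n := by exact_mod_cast h2
  have hn0 : (0 : ℝ) < n := by linarith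
  have hy0 : 0 < y := lt_of_lt_of_le (Real.rpow_pos_of_pos hn0 _) hd.yl
  have hTL : T ≤ 1 := by
    have hy : y ≤ 1 := by
      refine hd.yu.trans ?_
      refine H470.le_of_log (by positivity) one_pos ?_
      rw [Real.log_mul (by norm_num) (by positivity), Real.log_rpow hn0, Real.log_one]
      linarith
    have h5 : (n : ℝ) ^ (-q) ≤ 1 := Real.rpow_le_one_of_one_le_of_nonpos hn (by linarith)
    have h6 : y ^ 2 ≤ 1 := pow_le_one₀ hy0.le hy
    have h7 : (n : ℝ) ^ (-q) * y ^ 2 ≤ 1 * 1 := mul_le_mul h5 h6 (by positivity) zero_le_one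
    unfold H470.TL at hT2
    linarith
  have h3 := h1 y hd.yl hd.yu V hd.Vl hd.Vu hd.ap a hd.sg hd.al hd.au T hT hTL u hu hu1 m hm
  refine le_trans h3 ?_
  exact Real.rpow_le_rpow_of_exponent_le hn (by linarith)

/-- **The second half of the far zone of LC, without hypothesis.** -/
theorem lcFar2_end {b b₁ b₀ q : ℝ} (hb : 1 < b) (hq : 0 < q) (hq0 : 100000 * q ≤ b₀)
    (hb₀ : b₀ ≤ b₁) (hb₁ : b₁ ≤ 1 / 400) :
    H470.LcFar2 b b₁ b₀ (23 * q) (10 * q) q (1 / 10) (1 / 4) q q q q (40 * q) (6 * q)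
      (4 * q) :=
  lcFar2 (by linarith) hq hq0 hb₀ (by linarith) (brLcW hb hq (by linarith) hb₀ hb₁)

end Vale.Agent.P146.H877
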