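import Vale.Agent.P146.H877.LcZone2
import Vale.Agent.P146.H470.LcD

/-!
# P146: the second half of the far zone of LC

`lcFar2`: `H470.LcFar2` from the number `BrLcW`.
-/

open MeasureTheory ProbabilityTheory Filter Set

namespace Vale.Agent.P146.H877

/-- **The second half of the far zone of LC.** -/
theorem lcFar2 {b b₁ b₀ q : ℝ} (hb : 0 < b) (hq : 0 < q) (hq0 : 100000 * q ≤ b₀) (hb₀ : b₀ ≤ b₁)
    (hb₁ : b₁ ≤ 1 / 100) (hbr : BrLcW b b₁ b₀ q) :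
    H470.LcFar2 b b₁ b₀ (23 * q) (10 * q) q (1 / 10) (1 / 4) q q q q (40 * q) (6 * q)
      (4 * q) := by
  intro A hA
  filter_upwards [z2_far hb hq hq0 hb₀ hb₁ hbr A hA] with n hn
  intro y hy1 hy2 V hV1 hV2 hap a ha1 ha2 ha3 T hT1 hT2
  exact hn y V a ⟨hy1, hy2, hV1, hV2, hap, ha1, ha2, ha3⟩ T hT1 hT2

end Vale.Agent.P146.H877
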