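import Vale.Agent.P146.H877.LcBr

/-!
# P146: the size of the error of the zone `Z2`

`e2z_le`: the error `E2z` of one point in four pieces.
-/

open MeasureTheory ProbabilityTheory Set

namespace Vale.Agent.P146.H877

open Vale.Agent.P146.H615 (E1c)
open Vale.Agent.P146.H317 (E3c NC3)

/-- the constant of the error -/
noncomputable def Cz (b : ℝ) : ℝ :=
  4 * (6 * b ^ 2 * (1 + (1 + 2 / b) ^ 2) + 24000000 * ((2 * b ^ 4 + 8 * b ^ 8) * 70362) +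
    24000000 * ((2 * b ^ 4 + 8 * b ^ 8) * 4) + 24000000 * (2 * b ^ 4 * (13 / 4)) +
    24000000 * (8 * b ^ 8) + (4 * b * (5 / 2 + 2 / b) + 4 * b ^ 2 * (23 + 312 + 24 / b + 42)) + 2)

lemma nc3_le {U η inc rk k4 p0 pT l0 ε : ℝ} (hU : 0 < U) (hU1 : U ≤ 1) (hη : 0 ≤ η)
    (hηε : η ≤ ε) (hε1 : ε ≤ 1) (hi : inc ≤ ε) (hrk : rk ≤ ε) (hk4 : k4 ≤ ε) (hp0 : 0 ≤ p0)
    (hpT : pT ≤ ε) (hl0 : 0 < l0) (hlU : l0 ≤ U) :
    NC3 U l0 l0 η inc rk k4 p0 pT pT ≤ 70362 * (ε / l0) + 4 * (U ^ 4 / l0 * p0) := by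
  have hε : 0 ≤ ε := hη.trans hηε
  have hη2 : η ^ 2 ≤ ε := by nlinarith
  unfold NC3
  have a1 : η ^ 2 * (U + pT) ≤ 2 * ε := by
    have h1 : U + pT ≤ 2 := by linarith
    have h2 : η ^ 2 * (U + pT) ≤ η ^ 2 * 2 := mul_le_mul_of_nonneg_left h1 (sq_nonneg _)
    linarith
  have a2 : 4 * U * (2 * η ^ 2 * (U + pT) + 2 * inc) ≤ 24 * ε := by
    have h1 : 2 * η ^ 2 * (U + pT) + 2 * inc ≤ 6 * ε := by
      have e : 2 * η ^ 2 * (U + pT) = 2 * (η ^ 2 * (U + pT)) := by ring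
      rw [e]
      linarith
    have h2 : 4 * U * (2 * η ^ 2 * (U + pT) + 2 * inc) ≤ 4 * U * (6 * ε) :=
      mul_le_mul_of_nonneg_left h1 (by linarith)
    have h3 : 4 * U * (6 * ε) ≤ 24 * ε := by nlinarith
    linarith
  have a3 : 16 * (4 * U * (2 * η ^ 2 * (U + pT) + 2 * inc) + 49 * (pT + pT)) + 2 * rk ≤
      1954 * ε := by linarith
  have a4 : 36 * (U ^ 2 / l0) *
      (16 * (4 * U * (2 * η ^ 2 * (U + pT) + 2 * inc) + 49 * (pT + pT)) + 2 * rk) ≤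
      36 * (1 / l0) * (1954 * ε) := by
    have h1 : 36 * (U ^ 2 / l0) ≤ 36 * (1 / l0) := by
      have : U ^ 2 ≤ 1 := by nlinarith
      gcongr
    refine (mul_le_mul_of_nonneg_left a3 (by positivity)).trans ?_
    exact mul_le_mul_of_nonneg_right h1 (by positivity)
  have a5 : 8 * k4 / l0 ≤ 8 * ε / l0 := by gcongr
  have a6 : (2 * U ^ 3 + 2 * U ^ 4 / l0) * p0 ≤ 4 * (U ^ 4 / l0 * p0) := by
    have h1 : U ^ 3 ≤ U ^ 4 / l0 := by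
      rw [le_div_iff₀ hl0]
      have : U ^ 3 * l0 ≤ U ^ 3 * U := mul_le_mul_of_nonneg_left hlU (by positivity)
      calc U ^ 3 * l0 ≤ U ^ 3 * U := this
        _ = U ^ 4 := by ring
    have h2 : 2 * U ^ 3 + 2 * U ^ 4 / l0 ≤ 4 * (U ^ 4 / l0) := by
      rw [mul_div_assoc]
      linarith
    have h3 := mul_le_mul_of_nonneg_right h2 hp0
    linarith
  have a7 : 5 / l0 * (pT + pT) ≤ 5 / l0 * (2 * ε) :=
    mul_le_mul_of_nonneg_left (by linarith) (by positivity)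
  have e : 36 * (1 / l0) * (1954 * ε) + 8 * ε / l0 + 5 / l0 * (2 * ε) = 70362 * (ε / l0) := by
    ring
  linarith


lemma e3c_le {b kp η U θ wf W l0 inc rk1 k4 p0 pT ε : ℝ} (hb : 0 < b) (hkp : 0 < kp)
    (hk2 : kp ≤ 2 / b) (hη : 0 ≤ η) (hηε : η ≤ ε)
    (hε1 : ε ≤ 1) (hU : 0 < U) (hU1 : U ≤ 1) (hθ : 0 ≤ θ) (hθε : θ ≤ ε) (hw0 : 0 ≤ wf)
    (hwU : wf ≤ U) (hwW : wf ≤ W) (hl0 : 0 < l0) (hlU : l0 ≤ U)
    (hI : inc ≤ ε) (hrk1 : rk1 ≤ ε) (hk4 : k4 ≤ ε) (hp0 : 0 ≤ p0) (hpT : pT ≤ ε) :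
    E3c b kp η U θ wf l0 l0 inc rk1 k4 p0 pT ≤
      6 * b ^ 2 * ((1 + (1 + 2 / b) ^ 2) * (ε / l0)) +
      24000000 * ((2 * b ^ 4 + 8 * b ^ 8) * (70362 * (ε / l0) + 4 * (U ^ 4 / l0 * p0)) +
        (2 * b ^ 4 * (13 / 4) * (W ^ 2 * U) + 8 * b ^ 8 * (W ^ 4 / l0))) := by
  have hε : 0 ≤ ε := hη.trans hηε
  have hl1 : l0 ≤ 1 := hlU.trans hU1
  have hεl : ε ≤ ε / l0 := by
    rw [le_div_iff₀ hl0]
    exact mul_le_of_le_one_right hε hl1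
  have hη1 : η ≤ 1 := hηε.trans hε1
  have hεε : ε ^ 2 ≤ ε / l0 := by
    have : ε ^ 2 ≤ ε := by
      rw [sq]
      exact mul_le_of_le_one_right hε hε1
    linarith
  have c1 : U * θ ^ 2 + wf * (θ + kp * η) ^ 2 ≤ (1 + (1 + 2 / b) ^ 2) * (ε / l0) := by
    have h1 : θ ^ 2 ≤ ε / l0 := (pow_le_pow_left₀ hθ hθε 2).trans hεε
    have h2 : θ + kp * η ≤ (1 + 2 / b) * ε := by
      have h3 : kp * η ≤ 2 / b * ε := mul_le_mul hk2 hηε hη (by positivity)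
      linarith
    have h4 : (θ + kp * η) ^ 2 ≤ (1 + 2 / b) ^ 2 * (ε / l0) := by
      have h5 : 0 ≤ θ + kp * η := by positivity
      have h6 := pow_le_pow_left₀ h5 h2 2
      rw [mul_pow] at h6
      exact h6.trans (mul_le_mul_of_nonneg_left hεε (sq_nonneg _))
    have h5 : U * θ ^ 2 ≤ 1 * (ε / l0) := mul_le_mul hU1 h1 (sq_nonneg _) zero_le_one
    have h6 : wf * (θ + kp * η) ^ 2 ≤ 1 * ((1 + 2 / b) ^ 2 * (ε / l0)) :=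
      mul_le_mul (hwU.trans hU1) h4 (sq_nonneg _) zero_le_one
    linarith
  have c2 := nc3_le (inc := inc) (rk := rk1) (k4 := k4) hU hU1 hη hηε hε1 hI hrk1 hk4 hp0 hpT
    hl0 hlU
  have c3 : 2 * b ^ 4 * wf ^ 2 * (9 / 4 * U + l0) ≤ 2 * b ^ 4 * (13 / 4) * (W ^ 2 * U) := by
    have h1 : wf ^ 2 ≤ W ^ 2 := pow_le_pow_left₀ hw0 hwW 2
    have h2 : 9 / 4 * U + l0 ≤ 13 / 4 * U := by linarith
    calc 2 * b ^ 4 * wf ^ 2 * (9 / 4 * U + l0) ≤ 2 * b ^ 4 * W ^ 2 * (13 / 4 * U) := by gcongr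
      _ = 2 * b ^ 4 * (13 / 4) * (W ^ 2 * U) := by ring
  have c4 : 8 * b ^ 8 * wf ^ 4 / l0 ≤ 8 * b ^ 8 * (W ^ 4 / l0) := by
    rw [← mul_div_assoc]
    gcongr
  have hg : 6000000 * (1 + η) ^ 2 ≤ 24000000 := by
    have h1 : (1 + η) ^ 2 ≤ 2 ^ 2 := pow_le_pow_left₀ (by linarith) (by linarith) 2
    linarith
  unfold E3c
  have h1 : 6 * (b ^ 2 * (U * θ ^ 2 + wf * (θ + kp * η) ^ 2)) ≤
      6 * b ^ 2 * ((1 + (1 + 2 / b) ^ 2) * (ε / l0)) := by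
    have := mul_le_mul_of_nonneg_left c1 (show 0 ≤ 6 * b ^ 2 by positivity)
    linarith
  have h2 : (2 * b ^ 4 + 8 * b ^ 8) * NC3 U l0 l0 η inc rk1 k4 p0 pT pT +
      (2 * b ^ 4 * wf ^ 2 * (9 / 4 * U + l0) + 8 * b ^ 8 * wf ^ 4 / l0) ≤
      (2 * b ^ 4 + 8 * b ^ 8) * (70362 * (ε / l0) + 4 * (U ^ 4 / l0 * p0)) +
        (2 * b ^ 4 * (13 / 4) * (W ^ 2 * U) + 8 * b ^ 8 * (W ^ 4 / l0)) := by
    have := mul_le_mul_of_nonneg_left c2 (show 0 ≤ 2 * b ^ 4 + 8 * b ^ 8 by positivity)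
    linarith
  have h3 : 0 ≤ (2 * b ^ 4 + 8 * b ^ 8) * (70362 * (ε / l0) + 4 * (U ^ 4 / l0 * p0)) +
      (2 * b ^ 4 * (13 / 4) * (W ^ 2 * U) + 8 * b ^ 8 * (W ^ 4 / l0)) := by positivity
  have h4 := mul_le_mul_of_nonneg_left h2 (show 0 ≤ 6000000 * (1 + η) ^ 2 by positivity)
  have h5 := mul_le_mul_of_nonneg_right hg h3
  linarith

lemma e1c_le' {b y kp η U θ wf rk ε : ℝ} (hb : 0 < b)
    (hy1 : y ≤ 1) (hkp : 0 < kp) (hk2 : kp ≤ 2 / b) (hη : 0 ≤ η) (hηε : η ≤ ε)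
    (hU : 0 < U) (hU1 : U ≤ 1) (hθ : 0 ≤ θ) (hθε : θ ≤ ε) (hw0 : 0 ≤ wf)
    (hwU : wf ≤ U) (hrk : √rk ≤ ε) :
    E1c b y kp η U wf θ rk ≤
      (4 * b * (5 / 2 + 2 / b) + 4 * b ^ 2 * (23 + 312 + 24 / b + 42)) * ε := by
  have hε : 0 ≤ ε := hη.trans hηε
  have hkb : kp * b ≤ 2 := (le_div_iff₀ hb).1 hk2
  unfold E1c
  have h1 : 5 / 2 * (U * θ) + wf * (kp * η) ≤ (5 / 2 + 2 / b) * ε := by
    have h3 : kp * η ≤ 2 / b * ε := mul_le_mul hk2 hηε hη (by positivity)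
    have h4 : U * θ ≤ 1 * ε := mul_le_mul hU1 hθε hθ zero_le_one
    have h5 : wf * (kp * η) ≤ 1 * (2 / b * ε) :=
      mul_le_mul (hwU.trans hU1) h3 (by positivity) zero_le_one
    linarith
  have h2 : 2 * kp * b ^ 2 ≤ 4 * b := by
    have e : 2 * kp * b ^ 2 = 2 * (kp * b) * b := by ring
    rw [e]
    have := mul_le_mul_of_nonneg_right hkb hb.le
    linarith
  have h3 : 2 * kp * b ^ 2 * (5 / 2 * (U * θ) + wf * (kp * η)) ≤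
      4 * b * ((5 / 2 + 2 / b) * ε) :=
    mul_le_mul h2 h1 (by positivity) (by positivity)
  have h4 : y * kp ^ 2 * b ^ 4 ≤ 4 * b ^ 2 := by
    have h6 := pow_le_pow_left₀ (by positivity : (0 : ℝ) ≤ kp * b) hkb 2
    have h7 : y * kp ^ 2 * b ^ 4 = y * (kp * b) ^ 2 * b ^ 2 := by ring
    rw [h7]
    have h8 : y * (kp * b) ^ 2 ≤ 1 * 2 ^ 2 := mul_le_mul hy1 h6 (sq_nonneg _) zero_le_one
    have h9 := mul_le_mul_of_nonneg_right h8 (sq_nonneg b)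
    linarith
  have h5 : U ^ 2 * (23 * θ + (312 + 12 * kp) * η) + 42 * (U * √rk) ≤
      (23 + 312 + 24 / b + 42) * ε := by
    have h6 : 12 * kp ≤ 24 / b := by
      rw [show (24 : ℝ) / b = 12 * (2 / b) by ring]
      linarith
    have h7 : (312 + 12 * kp) * η ≤ (312 + 24 / b) * ε :=
      mul_le_mul (by linarith) hηε hη (by positivity)
    have h8 : 23 * θ + (312 + 12 * kp) * η ≤ (23 + 312 + 24 / b) * ε := by linarith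
    have hU2 : U ^ 2 ≤ 1 := pow_le_one₀ hU.le hU1
    have h9 : U ^ 2 * (23 * θ + (312 + 12 * kp) * η) ≤ 1 * ((23 + 312 + 24 / b) * ε) :=
      mul_le_mul hU2 h8 (by positivity) zero_le_one
    have h10 : U * √rk ≤ 1 * ε := mul_le_mul hU1 hrk (Real.sqrt_nonneg _) zero_le_one
    linarith
  have h6 : y * kp ^ 2 * b ^ 4 * (U ^ 2 * (23 * θ + (312 + 12 * kp) * η) + 42 * (U * √rk)) ≤
      4 * b ^ 2 * ((23 + 312 + 24 / b + 42) * ε) :=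
    mul_le_mul h4 h5 (by positivity) (by positivity)
  linarith

lemma cz_alg {Q1 Q2 Q3 Q4 Q5 Q6 P1 P2 P3 P4 : ℝ} (q1 : 0 ≤ Q1) (q2 : 0 ≤ Q2) (q3 : 0 ≤ Q3)
    (q4 : 0 ≤ Q4) (q5 : 0 ≤ Q5) (q6 : 0 ≤ Q6) (p1 : 0 ≤ P1) (p2 : 0 ≤ P2) (p3 : 0 ≤ P3)
    (p4 : 0 ≤ P4) : 4 * (Q1 * P1 + 24000000 * (Q2 * P1) + 24000000 * (Q3 * P2) +
        24000000 * (Q4 * P3) + 24000000 * (Q5 * P4) + Q6 * P1 + 2 * P1) ≤
      4 * (Q1 + 24000000 * Q2 + 24000000 * Q3 + 24000000 * Q4 + 24000000 * Q5 + Q6 + 2) *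
        (P1 + P2 + P3 + P4) := by
  have r1 : 0 ≤ Q1 * (P2 + P3 + P4) := by positivity
  have r2 : 0 ≤ Q2 * (P2 + P3 + P4) := by positivity
  have r3 : 0 ≤ Q3 * (P1 + P3 + P4) := by positivity
  have r4 : 0 ≤ Q4 * (P1 + P2 + P4) := by positivity
  have r5 : 0 ≤ Q5 * (P1 + P2 + P3) := by positivity
  have r6 : 0 ≤ Q6 * (P2 + P3 + P4) := by positivity
  linarith

/-- **The error of one point in four pieces.** -/
theorem e2z_le {b y kp η U θ wf W l0 I n m rk rk1 k4 p0 pT ε : ℝ} (hb : 0 < b) (hy : 0 < y)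
    (hy1 : y ≤ 1) (hk : 1 / 2 ≤ b * kp) (hk2 : kp ≤ 2 / b) (hη : 0 ≤ η) (hηε : η ≤ ε)
    (hε1 : ε ≤ 1) (hU : 0 < U) (hU1 : U ≤ 1) (hθ : 0 ≤ θ) (hθε : θ ≤ ε) (hw0 : 0 ≤ wf)
    (hwU : wf ≤ U) (hwW : wf ≤ W) (hl0 : 0 < l0) (hlU : l0 ≤ U) (hn : 0 < n) (hm : m ≤ n / 2)
    (hI0 : 0 ≤ I) (hI : I / n ≤ ε) (hrk : √rk ≤ ε) (hrk1 : rk1 ≤ ε) (hk4 : k4 ≤ ε)
    (hp0 : 0 ≤ p0) (hpT : pT ≤ ε) :
    E2z b y kp η U θ wf l0 l0 I n m rk rk1 k4 p0 pT ≤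
      Cz b * (ε / l0 + U ^ 4 / l0 * p0 + W ^ 2 * U + W ^ 4 / l0) := by
  have hε : 0 ≤ ε := hη.trans hηε
  have hl1 : l0 ≤ 1 := hlU.trans hU1
  have hW : 0 ≤ W := hw0.trans hwW
  have hεl : ε ≤ ε / l0 := by
    rw [le_div_iff₀ hl0]
    exact mul_le_of_le_one_right hε hl1
  have hkp : 0 < kp := by
    by_contra h
    push Not at h
    have := mul_nonpos_of_nonneg_of_nonpos hb.le h
    linarith
  have c5 := e3c_le (inc := I / n) (rk1 := rk1) (k4 := k4) hb hkp hk2 hη hηε hε1 hU hU1 hθ hθε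
    hw0 hwU hwW hl0 hlU hI hrk1 hk4 hp0 hpT
  have c6 := e1c_le' (rk := rk) hb hy1 hkp hk2 hη hηε hU hU1 hθ hθε hw0 hwU hrk
  have c7 : I / (n - m) ≤ 2 * (ε / l0) := by
    have h1 : n / 2 ≤ n - m := by linarith
    have h2 : I / (n - m) ≤ I / (n / 2) := div_le_div_of_nonneg_left hI0 (by positivity) h1
    have h3 : I / (n / 2) = 2 * (I / n) := by ring
    linarith
  have p1 : 0 ≤ ε / l0 := by positivity
  have p2 : 0 ≤ U ^ 4 / l0 * p0 := by positivity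
  have p3 : 0 ≤ W ^ 2 * U := by positivity
  have p4 : 0 ≤ W ^ 4 / l0 := by positivity
  have q6 : 0 ≤ 4 * b * (5 / 2 + 2 / b) + 4 * b ^ 2 * (23 + 312 + 24 / b + 42) := by positivity
  have c6' := mul_le_mul_of_nonneg_left hεl q6
  have hA : 1 / 4 ≤ (b * kp) ^ 2 := by
    have := pow_le_pow_left₀ (by norm_num) hk 2
    norm_num at this ⊢
    linarith
  have key := cz_alg (Q1 := 6 * b ^ 2 * (1 + (1 + 2 / b) ^ 2))
    (Q2 := (2 * b ^ 4 + 8 * b ^ 8) * 70362) (Q3 := (2 * b ^ 4 + 8 * b ^ 8) * 4)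
    (Q4 := 2 * b ^ 4 * (13 / 4)) (Q5 := 8 * b ^ 8)
    (Q6 := 4 * b * (5 / 2 + 2 / b) + 4 * b ^ 2 * (23 + 312 + 24 / b + 42))
    (by positivity) (by positivity) (by positivity) (by positivity) (by positivity) q6 p1 p2 p3 p4
  unfold E2z
  obtain ⟨X, hX⟩ : ∃ X, X = E3c b kp η U θ wf l0 l0 (I / n) rk1 k4 p0 pT +
      (E1c b y kp η U wf θ rk + I / (n - m)) := ⟨_, rfl⟩
  rw [← hX]
  obtain ⟨R, hR⟩ : ∃ R, R = 6 * b ^ 2 * (1 + (1 + 2 / b) ^ 2) * (ε / l0) +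
      24000000 * ((2 * b ^ 4 + 8 * b ^ 8) * 70362 * (ε / l0)) +
      24000000 * ((2 * b ^ 4 + 8 * b ^ 8) * 4 * (U ^ 4 / l0 * p0)) +
      24000000 * (2 * b ^ 4 * (13 / 4) * (W ^ 2 * U)) + 24000000 * (8 * b ^ 8 * (W ^ 4 / l0)) +
      (4 * b * (5 / 2 + 2 / b) + 4 * b ^ 2 * (23 + 312 + 24 / b + 42)) * (ε / l0) +
      2 * (ε / l0) := ⟨_, rfl⟩
  have h0 : X ≤ R := by
    rw [hX, hR]
    linarith
  have hR0 : 0 ≤ R := by rw [hR]; positivity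
  have h1 : X / (b * kp) ^ 2 ≤ 4 * R := by
    rw [div_le_iff₀ (by linarith)]
    have : 4 * R * (1 / 4) ≤ 4 * R * (b * kp) ^ 2 :=
      mul_le_mul_of_nonneg_left hA (by linarith)
    linarith
  refine h1.trans ?_
  rw [hR]
  exact key

end Vale.Agent.P146.H877
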