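import Vale.Agent.P146.H75.KUp

/-!
# P146: the second moment of the overlap from above at one point, test function `1`, any tangent

`rr_z2`: the quadratic term `b x E Q²` is kept and the linear term is split off by
`a Q ≤ c Q² / 4 + a² / c`. The third order term is given by `C3 ≤ A² (e3 b x E Q² ) + err3`.
-/

open MeasureTheory ProbabilityTheory Set

namespace Vale.Agent.P146.H877

open Vale.Agent.P157.Lv hiding Dep
open Vale.Agent.P146.H425 Vale.Agent.P146.H646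
open Vale.Agent.P146.H325 hiding cb cf
open Vale.Agent.P146.H196 Vale.Agent.P146.H246 Vale.Agent.P146.H347
  Vale.Agent.P146.H816 Vale.Agent.P146.H119 Vale.Agent.P146.H475 Vale.Agent.P146.H418
  Vale.Agent.P146.H317 Vale.Agent.P146.H643 Vale.Agent.P146.H75

set_option linter.unusedSectionVars false

variable {L : Law}

/-- `a E Q ≤ c/4 E Q² + a²/c` -/
lemma lin_le_qq (hA : H320.Adm L) (S : Finset (Fin L.n)) (t u : ℝ) {a c : ℝ} (hc : 0 < c) :
    a * L.ex' t u (L.Q S t u) ≤ c / 4 * L.qq S t u + a ^ 2 / c := by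
  have hw := wt_L hA t u
  have bQ := bm_Q hA S t u
  have h := H615.ex_mono hw (H615.bcm a bQ) ((H615.bcm (c / 4) (H615.bsq bQ)).add
    (BM.const (a ^ 2 / c))) fun z => by
      show a * L.Q S t u z ≤ c / 4 * L.Q S t u z ^ 2 + a ^ 2 / c
      have h1 : c / 4 * L.Q S t u z ^ 2 + a ^ 2 / c - a * L.Q S t u z =
          1 / c * (c / 2 * L.Q S t u z - a) ^ 2 := by
        field_simp
        ring
      have h2 : 0 ≤ 1 / c * (c / 2 * L.Q S t u z - a) ^ 2 := by positivity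
      linarith
  rw [H615.ex_cmul, H615.ex_add hw (H615.bcm _ (H615.bsq bQ)) (BM.const _), H615.ex_cmul,
    H615.ex_const hw] at h
  exact h

/-- **The second moment of the overlap from above at one point, test function `1`.** -/
theorem rr_z2 (hA : H320.Adm L) (hη1 : L.η ≤ 1 / 2) (hs : L.s ≠ 0) (hx0 : 0 < L.x)
    (hx1 : L.x < 1) {r0 : ℝ} (hc : L.c = L.s ^ 2 * L.n * (1 - (1 - L.x) * r0))
    (hk : 0 < L.b * (1 - (1 - L.x) * r0)) {m : ℕ} (hmn : m < L.n) {T u : ℝ} (hT0 : 0 ≤ T)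
    (hT1 : T ≤ 1) (hu0 : 0 < u) {i0 : Fin L.n}
    (hi0 : i0.1 + m = L.n) {a1 e' e3 err3 a2 w2 E0 : ℝ}
    (hAt : 1 - e' ≤ L.b * (1 - (1 - L.x) * r0) * (1 - T) ^ 2)
    (ha : 1 - 1 / (L.b * (1 - (1 - L.x) * r0)) ^ 2 ≤ a1) (he : e' + e3 ≤ 1 / 2)
    (hC3 : C3U L r0 (fun _ => 1) m (1 - T) u i0 ≤
      (L.b * (1 - (1 - L.x) * r0)) ^ 2 * (e3 * (L.b * L.x) * L.qq (Sn L.n m) (1 - T) u) + err3)
    (ha2 : 0 ≤ a2) (ha12 : a1 ≤ a2) (hw2 : u * L.vp / L.b ^ 2 ≤ w2)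
    (hE : err3 / (L.b * (1 - (1 - L.x) * r0)) ^ 2 + XE L r0 1 0 m (1 - T) u i0 ≤ E0) :
    L.rr (Sn L.n m) (1 - T) u ≤ 16 * (w2 + E0) / (L.b * L.x) + 16 * (a2 / (L.b * L.x)) ^ 2 +
      4 * (L.η * (2 + L.η)) ^ 2 * CC L (Sn L.n m) (1 - T) u + 2 * L.rk (Sn L.n m) (1 - T) u := by
  obtain ⟨hwf, ht, hSn, hi1, hne⟩ := pt_data hA hmn hT1 hu0 hi0
  have hvb : 0 < u * L.vp / L.b ^ 2 := by
    have := hA.vp0
    have := hA.b0
    positivity
  have hbx : 0 < L.b * L.x := mul_pos hA.b0 hx0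
  have bQ := bm_Q hA (Sn L.n m) (1 - T) u
  have hw := wt_L hA (1 - T) u
  have key := (H615.point_G hA.lam0 hA.η0 hη1 hs hx0 hx1 hA.n0 hc hk hA.b0
    (Finset.subset_univ (Sn L.n m)) hSn hi1 hne ht hwf hvb.le (G := fun _ => 1) (P := 1)
    (Lr := 0) measurable_const (fun _ _ => zero_le_one) zero_le_one (fun _ _ => le_rfl) le_rfl
    (fun r r' _ _ => by simp)).1 hAt ha
  set A := L.b * (1 - (1 - L.x) * r0) with hAdef
  have hA2 : 0 < A ^ 2 := by positivity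
  set X := L.ex' (1 - T) u (L.Q (Sn L.n m) (1 - T) u) with hX
  have hX0 : 0 ≤ X := exQ_nonneg hA _ _ _
  set q := L.qq (Sn L.n m) (1 - T) u with hq
  have hq0 : 0 ≤ q := H615.ex_nonneg hw fun z => sq_nonneg _
  set V := u * L.vp / L.b ^ 2 with hV
  have e1 : exS L.n L.b (cb (1 - T)) (cf L.vp u) L.s L.η L.lam L.c L.x
      (fun z => (fun _ : ℝ => (1 : ℝ)) (√(H615.Qv L.n L.b (cb (1 - T)) (cf L.vp u) L.s L.η L.lam
        L.c L.x (Sn L.n m) {true} {true} z)) *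
        ((1 - e') * (L.b * L.x) * H615.Qv L.n L.b (cb (1 - T)) (cf L.vp u) L.s L.η L.lam
        L.c L.x (Sn L.n m) {true} {true} z ^ 2 + (1 - (1 - T) - a1) *
        H615.Qv L.n L.b (cb (1 - T)) (cf L.vp u) L.s L.η L.lam
        L.c L.x (Sn L.n m) {true} {true} z - V)) =
        (1 - e') * (L.b * L.x) * q + (T - a1) * X - V := by
    have e2 : (fun z : Co L.n Bool Bool → ℝ => (fun _ : ℝ => (1 : ℝ)) (√(H615.Qv L.n L.b
        (cb (1 - T)) (cf L.vp u) L.s L.η L.lam L.c L.x (Sn L.n m) {true} {true} z)) *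
        ((1 - e') * (L.b * L.x) * H615.Qv L.n L.b (cb (1 - T)) (cf L.vp u) L.s L.η L.lam
        L.c L.x (Sn L.n m) {true} {true} z ^ 2 + (1 - (1 - T) - a1) *
        H615.Qv L.n L.b (cb (1 - T)) (cf L.vp u) L.s L.η L.lam
        L.c L.x (Sn L.n m) {true} {true} z - V)) =
        fun z => ((1 - e') * (L.b * L.x) * L.Q (Sn L.n m) (1 - T) u z ^ 2 +
          (T - a1) * L.Q (Sn L.n m) (1 - T) u z) - V := by
      funext z
      rw [Qv_eq]
      ring
    rw [e2]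
    show ex (g1 (Co L.n Bool Bool)) (L.wt (1 - T) u)
      (fun z => ((1 - e') * (L.b * L.x) * L.Q (Sn L.n m) (1 - T) u z ^ 2 +
          (T - a1) * L.Q (Sn L.n m) (1 - T) u z) - V) = _
    rw [H615.ex_sub hw ((H615.bcm _ (H615.bsq bQ)).add (H615.bcm _ bQ)) (BM.const _),
      H615.ex_const hw, H615.ex_add hw (H615.bcm _ (H615.bsq bQ)) (H615.bcm _ bQ),
      H615.ex_cmul, H615.ex_cmul]
    rfl
  rw [e1] at key
  have h1 : (1 - e') * (L.b * L.x) * q + (T - a1) * X - V ≤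
      e3 * (L.b * L.x) * q + (err3 / A ^ 2 + XE L r0 1 0 m (1 - T) u i0) := by
    refine key.trans ?_
    have hC3' : H615.C3v L.n L.b (cb (1 - T)) (cf L.vp u) L.s L.η L.lam L.c L.x
        (1 - (1 - L.x) * r0) (Sn L.n m) {true} {true} i0
        (fun z => (fun _ : ℝ => (1 : ℝ)) (√(H615.Qv L.n L.b (cb (1 - T)) (cf L.vp u) L.s L.η
          L.lam L.c L.x (Sn L.n m) {true} {true} z))) ≤
          A ^ 2 * (e3 * (L.b * L.x) * q) + err3 := hC3
    unfold XE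
    rw [← hAdef, ← hV, ← add_div]
    rw [div_le_iff₀ hA2, add_mul, div_mul_cancel₀ _ hA2.ne']
    have h2 : e3 * (L.b * L.x) * q * A ^ 2 = A ^ 2 * (e3 * (L.b * L.x) * q) := by ring
    rw [h2]
    linarith
  have h3 := lin_le_qq hA (Sn L.n m) (1 - T) u (a := a2) hbx
  rw [← hX, ← hq] at h3
  have h4 : (a1 - T) * X ≤ a2 * X := mul_le_mul_of_nonneg_right (by linarith) hX0
  have h5 : 1 / 2 * (L.b * L.x) * q ≤ (1 - e' - e3) * (L.b * L.x) * q :=
    mul_le_mul_of_nonneg_right (mul_le_mul_of_nonneg_right (by linarith) hbx.le) hq0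
  have h6 : L.b * L.x / 4 * q ≤ w2 + E0 + a2 ^ 2 / (L.b * L.x) := by
    have e7 : (1 - e' - e3) * (L.b * L.x) * q = (1 - e') * (L.b * L.x) * q -
      e3 * (L.b * L.x) * q := by ring
    have e8 : 1 / 2 * (L.b * L.x) * q = L.b * L.x / 4 * q + L.b * L.x / 4 * q := by ring
    linarith
  have h7 : q ≤ 4 * (w2 + E0) / (L.b * L.x) + 4 * (a2 / (L.b * L.x)) ^ 2 := by
    have e9 : 4 * (w2 + E0) / (L.b * L.x) + 4 * (a2 / (L.b * L.x)) ^ 2 =
        (w2 + E0 + a2 ^ 2 / (L.b * L.x)) / (L.b * L.x / 4) := by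
      obtain ⟨c, hcc⟩ : ∃ c, c = L.b * L.x := ⟨_, rfl⟩
      rw [← hcc] at hbx ⊢
      field_simp
      try ring
    rw [e9, le_div_iff₀ (by positivity)]
    linarith
  have h9 := rr_le_qq (S := Sn L.n m) (t := 1 - T) (u := u) (θ := 1) hA.lam0 hA.η0 hA.n0
    one_pos
  rw [← hq] at h9
  have h10 : (1 + (1 : ℝ)) ^ 2 = 4 := by norm_num
  have h11 : (1 + (1 : ℝ)) * (1 + 1 / 1) = 4 := by norm_num
  have h12 : (1 + (1 : ℝ) / 1) = 2 := by norm_num
  rw [h10, h11, h12] at h9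
  have e13 : 16 * (w2 + E0) / (L.b * L.x) = 4 * (4 * (w2 + E0) / (L.b * L.x)) := by ring
  rw [e13]
  linarith

end Vale.Agent.P146.H877
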