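import Vale.Agent.P146.H877.LcNum2
import Vale.Agent.P146.H615.NumU
import Vale.Agent.P146.H470.LcA

/-!
# P146: the zone `Z2` of LC

The part `T1 / 2 ≤ T ≤ n^(6q) y²`, tangent `a ≥ -n^(4q) y²`, of the far half of LC, from the bound of
the probability that the overlap exceeds `κ0 y`.

* `ZD`: the data; `ZW`: their logarithmic form, `zw_ev`;
* `apz_ev`: the a priori numbers;
* `z2_far`: the zone.
-/

open MeasureTheory ProbabilityTheory Filter Set

namespace Vale.Agent.P146.H877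

open Vale.Agent.P157.Lv hiding Dep
open Vale.Agent.P146.H425 Vale.Agent.P146.H646
open Vale.Agent.P146.H325 hiding cb cf
open Vale.Agent.P146.H196 Vale.Agent.P146.H347 Vale.Agent.P146.H475 Vale.Agent.P146.H418
  Vale.Agent.P146.H412 Vale.Agent.P146.H320 Vale.Agent.P146.H529
  Vale.Agent.P146.H516
open Vale.Agent.P146.H470 (uP uQ TL DL mL le_of_log ev_log log_c uP_mem)
open Vale.Agent.P146.H75 (sL lamL etaL)
open Vale.Agent.P146.H615 (Uq ApN Uq_pos Uq_sq rq rq_eq b_rq rk_typ inc_typ rb_typ)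

set_option linter.unusedSectionVars false

/-- the law of LC -/
noncomputable def LL (q b : ℝ) (n : ℕ) (y V a : ℝ) : Law :=
  lawOf n b y V a (sL (1 / 10) n y) (lamL q (1 / 4) n y) (etaL (1 / 4) n)

/-- The data of the zone. -/
structure ZD (b₁ b₀ q A b : ℝ) (n : ℕ) (y V a : ℝ) : Prop where
  yl : (n : ℝ) ^ (-b₁) ≤ y
  yu : y ≤ 2 * (n : ℝ) ^ (-b₀)
  Vl : y ^ 5 ≤ A * V
  Vu : V ≤ A * ((n : ℝ) ^ (-(23 * q)) * y ^ 3)
  ap : H178.AP b q n y (2 * V)
  sg : SG n b y V a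
  au : a ≤ A * ((n : ℝ) ^ (-(10 * q)) * y ^ 2)
  al : -((n : ℝ) ^ (4 * q) * y ^ 2) ≤ a

/-- The probability that the overlap exceeds `κ0 y` in the window of the typical point. -/
def BrLcW (b b₁ b₀ q : ℝ) : Prop := ∀ κ0 : ℝ, 0 < κ0 → ∀ A : ℝ, 1 ≤ A → ∀ᶠ n : ℕ in atTop,
  ∀ y V a : ℝ, ZD b₁ b₀ q A b n y V a → ∀ T, TL q n y / 4 ≤ T → T ≤ TL q n y / 2 →
    ∀ u, 0 ≤ u → u ≤ uP q n y V →
      ∀ m : ℕ, ⌈(n : ℝ) ^ (1 - q - 40 * q) * y ^ 2⌉₊ ≤ m → m ≤ mL q (40 * q) n y →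
        (LL q b n y V a).ex' (1 - T) u (H317.ind (κ0 * y)
          ((LL q b n y V a).Q (Sn n m) (1 - T) u)) ≤ (n : ℝ) ^ (-(40 * q))

/-- The window in logarithmic form. -/
structure ZW (K q A b : ℝ) (n : ℕ) (y V a : ℝ) : Prop where
  n1 : 1 < n
  y0 : 0 < y
  V0 : 0 < V
  q0 : 0 < q
  b0 : 0 < b
  A1 : 1 ≤ A
  L1 : 1 ≤ Real.log n
  cst : K + 10 * |Real.log b| + 10 * |Real.log A| + 100000 ≤ q / 100 * Real.log n
  K0 : 0 ≤ K
  qs : 100000 * q ≤ 1 / 100
  yl : -(1 / 100) * Real.log n ≤ Real.log y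
  yu : Real.log y ≤ -(900 * q) * Real.log n
  Vl : 5 * Real.log y - q / 100 * Real.log n ≤ Real.log V
  Vu : Real.log V ≤ -(23 * q) * Real.log n + 3 * Real.log y + q / 100 * Real.log n
  ap : H178.AP b q n y (2 * V)
  sg : SG n b y V a
  au : a ≤ A * ((n : ℝ) ^ (-(10 * q)) * y ^ 2)
  al : -((n : ℝ) ^ (4 * q) * y ^ 2) ≤ a

theorem zw_ev {b₁ b₀ q A b : ℝ} (K : ℝ) (hK : 0 ≤ K) (hq : 0 < q) (hb : 0 < b) (hA : 1 ≤ A)
    (hq0 : 100000 * q ≤ b₀) (hb₀ : b₀ ≤ b₁) (hb₁ : b₁ ≤ 1 / 100) :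
    ∀ᶠ n : ℕ in atTop, ∀ y V a : ℝ, ZD b₁ b₀ q A b n y V a → ZW K q A b n y V a := by
  filter_upwards [ev_log (θ := q / 100) (by positivity)
    (K + 10 * |Real.log b| + 10 * |Real.log A| + 100000), ev_log (θ := 1) one_pos 1,
    eventually_gt_atTop 1] with n h1 h2 h3
  intro y V a h
  have hn : (0 : ℝ) < n := by exact_mod_cast (by omega : 0 < n)
  have hA0 : 0 < A := by linarith
  rw [one_mul] at h2
  have k1 := abs_nonneg (Real.log b)
  have k2 := abs_nonneg (Real.log A)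
  have k3 := le_abs_self (Real.log A)
  have k4 := Real.log_nonneg hA
  have hy : 0 < y := lt_of_lt_of_le (Real.rpow_pos_of_pos hn _) h.yl
  have hV : 0 < V := by
    have : 0 < A * V := lt_of_lt_of_le (by positivity) h.Vl
    exact (mul_pos_iff_of_pos_left hA0).1 this
  have l1 := Real.log_le_log (by positivity) h.yl
  have l2 := Real.log_le_log hy h.yu
  have l3 := Real.log_le_log (by positivity) h.Vl
  have l4 := Real.log_le_log hV h.Vu
  simp (disch := positivity) only [Real.log_mul, Real.log_rpow, Real.log_pow] at l1 l2 l3 l4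
  push_cast at l3 l4
  have c2 := log_c 2 (by norm_num)
  have m1 : b₁ * Real.log n ≤ 1 / 100 * Real.log n := mul_le_mul_of_nonneg_right hb₁ (by linarith)
  have m2 : 100000 * q * Real.log n ≤ b₀ * Real.log n :=
    mul_le_mul_of_nonneg_right hq0 (by linarith)
  have m3 : 0 < q * Real.log n := mul_pos hq (by linarith)
  refine ⟨h3, hy, hV, hq, hb, hA, h2, h1, hK, by linarith, by linarith, by linarith, by linarith,
    by linarith, h.ap, h.sg, h.au, h.al⟩

section window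

variable {K q A b : ℝ} {n : ℕ} {y V a : ℝ}

lemma ZW.n0 (h : ZW K q A b n y V a) : (0 : ℝ) < n := by
  have := h.n1
  exact_mod_cast (by omega : 0 < n)

/-- all the facts in logarithmic form -/
lemma ZW.facts (h : ZW K q A b n y V a) :
    0 < q * Real.log n ∧ 100000 ≤ q / 100 * Real.log n ∧ Real.log b ≤ q / 1000 * Real.log n ∧
      -Real.log b ≤ q / 1000 * Real.log n ∧ 0 ≤ Real.log A ∧ Real.log A ≤ q / 1000 * Real.log n ∧
      K ≤ q / 100 * Real.log n ∧ 10000000 * (q * Real.log n) ≤ Real.log n ∧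
      -(1 / 100) * Real.log n ≤ Real.log y ∧ Real.log y ≤ -(900 * q) * Real.log n ∧
      5 * Real.log y - q / 100 * Real.log n ≤ Real.log V ∧
      Real.log V ≤ -(23 * q) * Real.log n + 3 * Real.log y + q / 100 * Real.log n := by
  have hL := h.L1
  have hc := h.cst
  have hK := h.K0
  have k1 := abs_nonneg (Real.log b)
  have k2 := abs_nonneg (Real.log A)
  have k3 := le_abs_self (Real.log b)
  have k4 := neg_abs_le (Real.log b)
  have k5 := le_abs_self (Real.log A)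
  have k6 := Real.log_nonneg h.A1
  have m2 : 100000 * q * Real.log n ≤ 1 / 100 * Real.log n :=
    mul_le_mul_of_nonneg_right h.qs (by linarith)
  refine ⟨mul_pos h.q0 (by linarith), by linarith, by linarith, by linarith, k6, by linarith,
    by linarith, by linarith, h.yl, h.yu, h.Vl, h.Vu⟩

lemma ZW.sz (h : ZW K q A b n y V a) :
    0 < sL (1 / 10) n y ∧ sL (1 / 10) n y ^ 2 = (n : ℝ) ^ (-(1 / 10) : ℝ) * y ^ 5 ∧
      0 < lamL q (1 / 4) n y ∧ 0 < etaL (1 / 4) n ∧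
      y * (lamL q (1 / 4) n y * etaL (1 / 4) n) = (n : ℝ) ^ q := by
  have hn := h.n0
  have hy := h.y0
  have h1 : 0 < (n : ℝ) ^ (-(1 / 10) : ℝ) * y ^ 5 := by positivity
  refine ⟨Real.sqrt_pos.2 h1, Real.sq_sqrt h1.le, by unfold lamL; positivity,
    Real.rpow_pos_of_pos hn _, ?_⟩
  unfold lamL etaL
  rw [div_mul_eq_mul_div, ← Real.rpow_add hn, mul_div_cancel₀ _ hy.ne']
  congr 1
  ring

/-- the elementary sizes -/
lemma ZW.bd (h : ZW K q A b n y V a) :
    y ≤ 1 / 1000 ∧ V ≤ 1 / 1000 ∧ etaL (1 / 4) n ≤ 1 / 1000 ∧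
      sL (1 / 10) n y ^ 2 ≤ V / 1000 ∧ 1 ≤ lamL q (1 / 4) n y * etaL (1 / 4) n ∧
      1 ≤ lamL q (1 / 4) n y ∧ 1000 * (y ^ 2 * b ^ 2) ≤ 1 ∧
      (n : ℝ) ^ (-(1 / 6) + 1 / 10 : ℝ) ≤ y ∧ |a| ≤ 1 / 1000 := by
  obtain ⟨f1, f2, f3, f4, f5, f6, f7, f8, f9, f10, f11, f12⟩ := h.facts
  obtain ⟨s1, s2, s3, s4, s5⟩ := h.sz
  have hn := h.n0
  have hy := h.y0
  have hV := h.V0
  have hb := h.b0
  have hA : 0 < A := by linarith [h.A1]
  have c1 := log_c 1000 (by norm_num)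
  have hη1 : etaL (1 / 4) n ≤ 1 / 1000 := by
    unfold etaL
    refine le_of_log (by positivity) (by positivity) ?_
    simp (disch := positivity) only [Real.log_div, Real.log_one, Real.log_rpow]
    linarith
  have hle : 1 ≤ lamL q (1 / 4) n y * etaL (1 / 4) n := by
    refine le_of_log (by positivity) (by positivity) ?_
    unfold lamL etaL
    simp (disch := positivity) only [Real.log_mul, Real.log_one, Real.log_div, Real.log_rpow]
    linarith
  refine ⟨?_, ?_, hη1, ?_, hle, ?_, ?_, ?_, ?_⟩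
  · refine le_of_log (by positivity) (by positivity) ?_
    simp (disch := positivity) only [Real.log_div, Real.log_one]
    linarith
  · refine le_of_log (by positivity) (by positivity) ?_
    simp (disch := positivity) only [Real.log_div, Real.log_one]
    linarith
  · rw [s2]
    refine le_of_log (by positivity) (by positivity) ?_
    simp (disch := positivity) only [Real.log_div, Real.log_pow, Real.log_mul, Real.log_rpow]
    push_cast
    linarith
  · nlinarith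
  · refine le_of_log (by positivity) (by positivity) ?_
    simp (disch := positivity) only [Real.log_mul, Real.log_pow, Real.log_one]
    push_cast
    linarith
  · refine le_of_log (by positivity) (by positivity) ?_
    simp (disch := positivity) only [Real.log_rpow]
    linarith
  · have h1 : A * ((n : ℝ) ^ (-(10 * q)) * y ^ 2) ≤ 1 / 1000 := by
      refine le_of_log (by positivity) (by positivity) ?_
      simp (disch := positivity) only [Real.log_mul, Real.log_pow, Real.log_div, Real.log_one,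
        Real.log_rpow]
      push_cast
      linarith
    have h2 : (n : ℝ) ^ (4 * q) * y ^ 2 ≤ 1 / 1000 := by
      refine le_of_log (by positivity) (by positivity) ?_
      simp (disch := positivity) only [Real.log_mul, Real.log_pow, Real.log_div, Real.log_one,
        Real.log_rpow]
      push_cast
      linarith
    rw [abs_le]
    exact ⟨by linarith [h.al], h.au.trans h1⟩

lemma ZW.adm (h : ZW K q A b n y V a) :
    Adm (LL q b n y V a) ∧ V / 2 ≤ V - sL (1 / 10) n y ^ 2 ∧ V - sL (1 / 10) n y ^ 2 ≤ V := by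
  obtain ⟨k1, k2, k3, k4, k5, k6, k7, k8, k9⟩ := h.bd
  obtain ⟨s1, s2, s3, s4, s5⟩ := h.sz
  have hV := h.V0
  have hn := h.n1
  refine ⟨⟨by show 0 < n; omega, h.b0, ?_, s3, s4.le, h.y0.le, ?_⟩, by linarith, ?_⟩
  · show 0 < V - sL (1 / 10) n y ^ 2
    linarith
  · show y ≤ 1
    linarith
  · have := sq_nonneg (sL (1 / 10) n y)
    linarith

lemma ZW.par (h : ZW K q A b n y V a) :
    Par1 b q (1 / 10) n (V - sL (1 / 10) n y ^ 2) (sL (1 / 10) n y) (lamL q (1 / 4) n y)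
      (etaL (1 / 4) n) y V a := by
  obtain ⟨k1, k2, k3, k4, k5, k6, k7, k8, k9⟩ := h.bd
  obtain ⟨s1, s2, s3, s4, s5⟩ := h.sz
  have hV := h.V0
  exact ⟨by linarith, by ring, by linarith, s1, k6, s4, by linarith, k5, k8,
    by linarith, h.ap, h.sg⟩

end window

lemma cp_alg {c d : ℝ} (hc : 0 < c) (hd : 0 < d) :
    c ≤ (c + 1) * (d + 1) ∧ d ≤ ((c + 1) * (d + 1)) ^ 2 := by
  have h1 : 0 ≤ c * d := by positivity
  have h2 : 1 ≤ (c + 1) * (d + 1) := by nlinarith
  have h3 : d ≤ (c + 1) * (d + 1) := by nlinarith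
  refine ⟨by nlinarith, h3.trans ?_⟩
  rw [sq]
  exact le_mul_of_one_le_left (by linarith) h2

/-- **The a priori numbers of the law of LC, eventually.** -/
theorem apz_ev {K q A b : ℝ} (D : ℝ) (hq : 0 < q) (hb : 0 < b) :
    ∀ᶠ n : ℕ in atTop, ∀ y V a : ℝ, ZW K q A b n y V a →
      ∀ T, 0 < T → T ≤ 1 → ∀ u ∈ Icc (0 : ℝ) 1, ApN (2 * q) D (LL q b n y V a) T u := by
  filter_upwards [
    mom_ev1 (b := b) (e := 1 / 10) (s0 := q) (s1 := 3 / 2 * q) hb (by norm_num) hq.le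
      (by linarith),
    tail_ev1 (b := b) (e := 1 / 10) (s0 := q) (s1 := 3 / 2 * q) (s2 := 2 * q) D hb (by norm_num)
      hq.le (by linarith) (by linarith),
    tail_ap (b := b) (D := D) hq hb,
    ev_log (θ := q) hq (Real.log (4 * (Cp 1 + 1) * (Cp 2 + 1) / b ^ 2))] with n h2 h3 h4 h5
  intro y V a hw T hT hT1 u hu
  obtain ⟨k1, k2, k3, k4, k5, k6, k7, k8, k9⟩ := hw.bd
  obtain ⟨s1, s2, s3, s4, s5⟩ := hw.sz
  have hn := hw.n0
  have hy := hw.y0
  have hV := hw.V0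
  have hpar := hw.par
  have hyb : y ^ 2 * b ^ 2 ≤ 4 := by nlinarith [sq_nonneg (y * b)]
  have e1 : 1 - (1 - T) = T := by ring
  have hCp : ∀ p, 0 < Cp p := fun p => by
    unfold Cp
    positivity
  have hc1 := hCp 1
  have hc2 := hCp 2
  have hnq : 4 * (Cp 1 + 1) * (Cp 2 + 1) / b ^ 2 ≤ (n : ℝ) ^ q := by
    refine le_of_log (by positivity) (by positivity) ?_
    rw [Real.log_rpow hn]
    exact h5
  have hmid : (Cp 1 + 1) * (Cp 2 + 1) * (4 * ((n : ℝ) ^ (3 / 2 * q) * y ^ 4) / (b ^ 2 * T)) ≤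
      Uq (2 * q) n y T ^ 2 := by
    rw [Uq_sq hT]
    calc (Cp 1 + 1) * (Cp 2 + 1) * (4 * ((n : ℝ) ^ (3 / 2 * q) * y ^ 4) / (b ^ 2 * T))
        = 4 * (Cp 1 + 1) * (Cp 2 + 1) / b ^ 2 * ((n : ℝ) ^ (3 / 2 * q) * y ^ 4 / T) := by
          field_simp
      _ ≤ (n : ℝ) ^ q * ((n : ℝ) ^ (3 / 2 * q) * y ^ 4 / T) :=
          mul_le_mul_of_nonneg_right hnq (by positivity)
      _ = (n : ℝ) ^ (5 / 2 * q) * (y ^ 4 / T) := by
          rw [show (5 : ℝ) / 2 * q = q + 3 / 2 * q by ring, Real.rpow_add hn]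
          ring
      _ ≤ (n : ℝ) ^ (4 * q) * (y ^ 4 / T) := by
          refine mul_le_mul_of_nonneg_right ?_ (by positivity)
          exact Real.rpow_le_rpow_of_exponent_le (by exact_mod_cast hw.n1.le) (by linarith)
      _ = ((n : ℝ) ^ (2 * q) * y ^ 2) ^ 2 / T := by
          rw [show (4 : ℝ) * q = 2 * q + 2 * q by ring, Real.rpow_add hn]
          ring
  have hX : 0 ≤ 4 * ((n : ℝ) ^ (3 / 2 * q) * y ^ 4) / (b ^ 2 * T) := by positivity
  have g2 := h2 _ _ _ _ y V a hpar hyb (1 - T) (by linarith) (by linarith) u hu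
  have g3 := h3 _ _ _ _ y V a hpar hyb (1 - T) (by linarith) (by linarith) u hu
  rw [e1] at g2 g3
  have hU := Uq_pos (q := 2 * q) hn hy hT
  have hUT : ((n : ℝ) ^ (2 * q) * y ^ 2) ^ 2 ≤ Uq (2 * q) n y T ^ 2 * T := by
    rw [Uq_sq hT, div_mul_cancel₀ _ hT.ne']
  refine ⟨fun S => ?_, fun S => ?_, fun S => (g3 S _ hU.le hUT).1, fun S =>
    (g3 S _ hU.le hUT).2.1, fun S => (g3 S _ hU.le hUT).2.2, ?_⟩
  · have g := g2 S 1
    simp only [pow_one] at g
    refine g.trans (le_trans ?_ hmid)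
    exact mul_le_mul_of_nonneg_right (cp_alg hc1 hc2).1 hX
  · have g := g2 S 2
    refine g.trans ?_
    have h6 := pow_le_pow_left₀ (by positivity) hmid 2
    have e2 : (Uq (2 * q) n y T ^ 2) ^ 2 = Uq (2 * q) n y T ^ 4 := by ring
    show _ ≤ Uq (2 * q) n y T ^ 4
    rw [← e2]
    refine le_trans ?_ h6
    rw [mul_pow]
    exact mul_le_mul_of_nonneg_right (cp_alg hc1 hc2).2 (sq_nonneg _)
  · refine h4 Bool Bool (H418.cb (1 - T)) (H418.cf (V - sL (1 / 10) n y ^ 2) u) _ _ _ y V a ?_ ?_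
      (by linarith) s1 k6 s4 (show etaL (1 / 4) n < 1 by linarith) (le_of_eq s5.symm) hy
      (by linarith) hw.sg
    · exact sum_cb (by linarith) (by linarith)
    · rw [sum_cf (by linarith) hu.1 hu.2]
      ring

end Vale.Agent.P146.H877
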