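import Vale.Agent.P146.H877.LcZone

/-!
# P146: the zone `Z2` of LC, the typical point

`z2_far`: for LC data with tangent at least `-n^(4q) y²` and `T1 / 2 ≤ T ≤ n^(6q) y²`,
`T rr(T) ≤ n^(-q) y⁴`.
-/

open MeasureTheory ProbabilityTheory Filter Set

namespace Vale.Agent.P146.H877

open Vale.Agent.P157.Lv hiding Dep
open Vale.Agent.P146.H425 Vale.Agent.P146.H646
open Vale.Agent.P146.H325 hiding cb cf
open Vale.Agent.P146.H196 Vale.Agent.P146.H347 Vale.Agent.P146.H475 Vale.Agent.P146.H418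
  Vale.Agent.P146.H412 Vale.Agent.P146.H320 Vale.Agent.P146.H529
  Vale.Agent.P146.H516
open Vale.Agent.P146.H470 (uP uQ TL DL mL le_of_log ev_log log_c uP_mem)
open Vale.Agent.P146.H75 (sL lamL etaL)
open Vale.Agent.P146.H615 (Uq ApN Uq_pos Uq_sq rq rq_eq b_rq rk_typ inc_typ rb_typ)

set_option linter.unusedSectionVars false

/-- the constant of the last square -/
noncomputable def CB (b : ℝ) : ℝ := H317.CBc b (1 / 2)

/-- the small multiple of the exponent -/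
noncomputable def k0 (b : ℝ) : ℝ := min 1 (b / (4352 * CB b))

lemma CB_pos {b : ℝ} (hb : 0 < b) : 0 < CB b := by
  unfold CB H317.CBc
  positivity

lemma k0_pos {b : ℝ} (hb : 0 < b) : 0 < k0 b := by
  have := CB_pos hb
  exact lt_min one_pos (by positivity)

/-- half the number of the hidden sites -/
noncomputable def mz (q : ℝ) (n : ℕ) (y : ℝ) : ℕ := ⌈(n : ℝ) ^ (1 - q - 40 * q) * y ^ 2⌉₊

/-- the constant in the window -/
noncomputable def Kz (b : ℝ) : ℝ := 10 * |Real.log (Cz b)| + 10 * |Real.log (k0 b)|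

section window

variable {q A b : ℝ} {n : ℕ} {y V a : ℝ}

lemma Kz_nonneg (b : ℝ) : 0 ≤ Kz b := by
  unfold Kz
  positivity

lemma ZW.kfacts (h : ZW (Kz b) q A b n y V a) :
    Real.log (Cz b) ≤ q / 1000 * Real.log n ∧ -Real.log (k0 b) ≤ q / 1000 * Real.log n ∧
      Real.log (k0 b) ≤ 0 := by
  obtain ⟨f1, f2, f3, f4, f5, f6, f7, f8, f9, f10, f11, f12⟩ := h.facts
  unfold Kz at f7
  have k1 := abs_nonneg (Real.log (Cz b))
  have k2 := abs_nonneg (Real.log (k0 b))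
  have k3 := le_abs_self (Real.log (Cz b))
  have k4 := neg_abs_le (Real.log (k0 b))
  refine ⟨by linarith, by linarith, ?_⟩
  exact Real.log_nonpos (k0_pos h.b0).le (min_le_left _ _)

/-- the field against the a priori size -/
lemma ZW.wf_le {K : ℝ} (h : ZW K q A b n y V a) {u : ℝ} (hu : u ∈ Icc (0 : ℝ) 1) :
    u * (V - sL (1 / 10) n y ^ 2) / b ^ 2 ≤ (n : ℝ) ^ (-(22 * q)) * y ^ 3 := by
  obtain ⟨f1, f2, f3, f4, f5, f6, f7, f8, f9, f10, f11, f12⟩ := h.facts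
  obtain ⟨k1, k2, k3, k4, k5, k6, k7, k8, k9⟩ := h.bd
  have hn := h.n0
  have hy := h.y0
  have hV := h.V0
  have hb := h.b0
  have h1 : u * (V - sL (1 / 10) n y ^ 2) ≤ 1 * V :=
    mul_le_mul hu.2 (by linarith [sq_nonneg (sL (1 / 10) n y)]) (by linarith) zero_le_one
  rw [one_mul] at h1
  refine (div_le_div_of_nonneg_right h1 (sq_nonneg b)).trans ?_
  refine le_of_log (by positivity) (by positivity) ?_
  simp (disch := positivity) only [Real.log_div, Real.log_mul, Real.log_rpow, Real.log_pow]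
  push_cast
  linarith

lemma ZW.mz_facts {K : ℝ} (h : ZW K q A b n y V a) :
    (n : ℝ) ^ (1 - q - 40 * q) * y ^ 2 ≤ mz q n y ∧ 1 ≤ mz q n y ∧
      2 * (mz q n y : ℝ) ≤ n / 2 := by
  obtain ⟨f1, f2, f3, f4, f5, f6, f7, f8, f9, f10, f11, f12⟩ := h.facts
  have hn := h.n0
  have hy := h.y0
  have hL := h.L1
  have c8 := log_c 8 (by norm_num)
  have k1 : 1 ≤ (n : ℝ) ^ (1 - q - 40 * q) * y ^ 2 := by
    refine le_of_log (by positivity) (by positivity) ?_
    simp (disch := positivity) only [Real.log_mul, Real.log_rpow, Real.log_pow, Real.log_one]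
    push_cast
    linarith
  have k2 := (Nat.ceil_lt_add_one
    (show 0 ≤ (n : ℝ) ^ (1 - q - 40 * q) * y ^ 2 by positivity)).le
  have k3 : (n : ℝ) ^ (1 - q - 40 * q) * y ^ 2 ≤ mz q n y := by
    unfold mz
    exact Nat.le_ceil _
  have k4 : (mz q n y : ℝ) ≤ 2 * ((n : ℝ) ^ (1 - q - 40 * q) * y ^ 2) := by
    unfold mz
    linarith
  have k5 : (1 : ℝ) ≤ mz q n y := k1.trans k3
  have k6 : (n : ℝ) ^ (1 - q - 40 * q) * y ^ 2 ≤ n / 8 := by
    refine le_of_log (by positivity) (by positivity) ?_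
    simp (disch := positivity) only [Real.log_mul, Real.log_rpow, Real.log_pow, Real.log_div]
    push_cast
    linarith
  exact ⟨k3, by exact_mod_cast k5, by linarith⟩

lemma ZW.rq_le {K : ℝ} (h : ZW K q A b n y V a) : |rq b y a| + 1 ≤ (n : ℝ) ^ q := by
  obtain ⟨f1, f2, f3, f4, f5, f6, f7, f8, f9, f10, f11, f12⟩ := h.facts
  obtain ⟨k1, k2, k3, k4, k5, k6, k7, k8, k9⟩ := h.bd
  have hn := h.n0
  have hy := h.y0
  have hb := h.b0
  have hal := abs_le.1 k9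
  have c1 := log_c 8 (by norm_num)
  have h1 : 0 < 1 - y := by linarith
  have h2 : |rq b y a| ≤ 2 * (1 + 2 / b) := by
    unfold H615.rq
    rw [abs_div, abs_of_pos h1, div_le_iff₀ h1]
    have h3 : 0 < 2 / b := by positivity
    have h4 : (1 + a) / b ≤ 2 / b := div_le_div_of_nonneg_right (by linarith) hb.le
    have h5 : 0 ≤ (1 + a) / b := div_nonneg (by linarith) hb.le
    have h6 : |1 - (1 + a) / b| ≤ 1 + 2 / b := by
      rw [abs_le]
      constructor <;> linarith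
    nlinarith
  have h3 : 8 ≤ (n : ℝ) ^ q := by
    refine le_of_log (by positivity) (by positivity) ?_
    simp (disch := positivity) only [Real.log_rpow]
    linarith
  have h4 : 8 / b ≤ (n : ℝ) ^ q := by
    refine le_of_log (by positivity) (by positivity) ?_
    simp (disch := positivity) only [Real.log_rpow, Real.log_div]
    linarith
  have h5 : 2 * (1 + 2 / b) = 2 + 8 / b / 2 := by ring
  linarith

/-- the window of `T` -/
lemma ZW.TL_facts {K : ℝ} (h : ZW K q A b n y V a) {T : ℝ} (hT : TL q n y / 4 ≤ T)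
    (hT2 : T ≤ TL q n y / 2) : 0 < T ∧ T ≤ 1 / 1000 ∧
      -q * Real.log n + 2 * Real.log y - 3 ≤ Real.log T ∧
      Real.log T ≤ -q * Real.log n + 2 * Real.log y := by
  obtain ⟨f1, f2, f3, f4, f5, f6, f7, f8, f9, f10, f11, f12⟩ := h.facts
  have hn := h.n0
  have hy := h.y0
  have hT1 : 0 < TL q n y := by
    unfold H470.TL
    positivity
  have hT0 : 0 < T := by linarith
  have c1 := log_c 1000 (by norm_num)
  have c4 : Real.log 4 ≤ 3 := by
    have := Real.log_le_sub_one_of_pos (show (0 : ℝ) < 4 by norm_num)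
    linarith
  have c2 : 0 ≤ Real.log 2 := Real.log_nonneg (by norm_num)
  have l1 := Real.log_le_log (by positivity) hT
  have l2 := Real.log_le_log hT0 hT2
  unfold H470.TL at l1 l2
  simp (disch := positivity) only [Real.log_div, Real.log_mul, Real.log_rpow, Real.log_pow]
    at l1 l2
  push_cast at l1 l2
  refine ⟨hT0, ?_, by linarith, by linarith⟩
  refine le_of_log hT0 (by positivity) ?_
  simp (disch := positivity) only [Real.log_div, Real.log_one]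
  linarith

/-- the a priori size in the window -/
lemma ZW.U_facts {K : ℝ} (h : ZW K q A b n y V a) {T : ℝ} (hT : TL q n y / 4 ≤ T)
    (hT2 : T ≤ TL q n y / 2) : Uq (2 * q) n y T ≤ (n : ℝ) ^ (3 * q) * y ∧ y ≤ Uq (2 * q) n y T ∧
      (n : ℝ) ^ (3 * q) * y ≤ 1 / 1000 := by
  obtain ⟨f1, f2, f3, f4, f5, f6, f7, f8, f9, f10, f11, f12⟩ := h.facts
  obtain ⟨hT0, t0, t1, t2⟩ := h.TL_facts hT hT2
  have hn := h.n0
  have hy := h.y0
  have c1 := log_c 1000 (by norm_num)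
  refine ⟨?_, ?_, ?_⟩
  · unfold H615.Uq
    refine le_of_log (by positivity) (by positivity) ?_
    simp (disch := positivity) only [Real.log_div, Real.log_mul, Real.log_rpow, Real.log_pow,
      Real.log_sqrt]
    push_cast
    linarith
  · unfold H615.Uq
    refine le_of_log (by positivity) (by positivity) ?_
    simp (disch := positivity) only [Real.log_div, Real.log_mul, Real.log_rpow, Real.log_pow,
      Real.log_sqrt]
    push_cast
    linarith
  · refine le_of_log (by positivity) (by positivity) ?_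
    simp (disch := positivity) only [Real.log_div, Real.log_mul, Real.log_rpow, Real.log_one]
    linarith

/-- the shares of the field -/
lemma ZW.u_facts {K : ℝ} (h : ZW K q A b n y V a) :
    0 ≤ uQ q q n y V ∧ uQ q q n y V ≤ uP q n y V ∧ 1 / 4 ≤ uQ q q n y V ∧ uP q n y V ≤ 1 ∧
      (n : ℝ) ^ (-q) / 2 ≤ uP q n y V - uQ q q n y V := by
  obtain ⟨f1, f2, f3, f4, f5, f6, f7, f8, f9, f10, f11, f12⟩ := h.facts
  obtain ⟨p1, p2⟩ := uP_mem q n h.V0 h.y0
  have hn := h.n0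
  have o1 : 0 < (n : ℝ) ^ (-q) := Real.rpow_pos_of_pos hn _
  have o2 : (n : ℝ) ^ (-q) ≤ 1 / 2 := by
    have c1 := log_c 2 (by norm_num)
    refine le_of_log (by positivity) (by positivity) ?_
    simp (disch := positivity) only [Real.log_rpow, Real.log_div, Real.log_one]
    linarith
  unfold H470.uQ
  refine ⟨mul_nonneg (by linarith) (by linarith), by nlinarith, by nlinarith, p2, by nlinarith⟩

/-- the small number -/
noncomputable def ez (n : ℕ) : ℝ := (n : ℝ) ^ (-(1 / 5) : ℝ)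

/-- `θ` -/
lemma ZW.th_num {K : ℝ} (h : ZW K q A b n y V a) {P T : ℝ} (hT : TL q n y / 4 ≤ T)
    (hT2 : T ≤ TL q n y / 2) {m : ℕ} (hm : mz q n y ≤ m)
    (hP : P ≤ (n : ℝ) ^ (-(1 / 2 : ℝ))) (hP0 : 0 ≤ P) :
    5 / √(m : ℝ) + 2 * |lamL q (1 / 4) n y / ((1 - y) * (sL (1 / 10) n y ^ 2 * n))| +
      3 * ((|rq b y a| + 1) * P) / √(Uq (2 * q) n y T) ≤ ez n := by
  obtain ⟨f1, f2, f3, f4, f5, f6, f7, f8, f9, f10, f11, f12⟩ := h.facts
  obtain ⟨k1, k2, k3, k4, k5, k6, k7, k8, k9⟩ := h.bd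
  obtain ⟨hT0, t0, t1, t2⟩ := h.TL_facts hT hT2
  obtain ⟨m1, m2, m3⟩ := h.mz_facts
  obtain ⟨s1, s2, s3, s4, s5⟩ := h.sz
  have hn := h.n0
  have hy := h.y0
  have hU0 := Uq_pos (q := 2 * q) hn hy hT0
  have hm0 : (0 : ℝ) < m := by
    have : 1 ≤ m := m2.trans hm
    exact_mod_cast this
  have hmm : (n : ℝ) ^ (1 - q - 40 * q) * y ^ 2 ≤ m := m1.trans (by exact_mod_cast hm)
  have hlm := Real.log_le_log (by positivity) hmm
  simp (disch := positivity) only [Real.log_mul, Real.log_rpow, Real.log_pow] at hlm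
  push_cast at hlm
  have c5 := log_c 5 (by norm_num)
  have c3 := log_c 3 (by norm_num)
  have c4 := log_c 4 (by norm_num)
  have x1 : 5 / √(m : ℝ) ≤ ez n / 3 := by
    unfold ez
    refine le_of_log (by positivity) (by positivity) ?_
    simp (disch := positivity) only [Real.log_rpow, Real.log_div, Real.log_sqrt]
    linarith
  have x2 : 2 * |lamL q (1 / 4) n y / ((1 - y) * (sL (1 / 10) n y ^ 2 * n))| ≤ ez n / 3 := by
    have y1 : 0 < 1 - y := by linarith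
    have hs2 : 0 < sL (1 / 10) n y ^ 2 := by positivity
    rw [abs_of_pos (by positivity)]
    have y2 : 2 * (lamL q (1 / 4) n y / ((1 - y) * (sL (1 / 10) n y ^ 2 * n))) ≤
        4 * (lamL q (1 / 4) n y / (sL (1 / 10) n y ^ 2 * n)) := by
      rw [show 4 * (lamL q (1 / 4) n y / (sL (1 / 10) n y ^ 2 * n)) =
        2 * (lamL q (1 / 4) n y / (1 / 2 * (sL (1 / 10) n y ^ 2 * n))) by ring]
      refine mul_le_mul_of_nonneg_left ?_ (by norm_num)
      refine div_le_div_of_nonneg_left s3.le (by positivity) ?_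
      exact mul_le_mul_of_nonneg_right (by linarith) (by positivity)
    refine y2.trans ?_
    rw [s2]
    unfold H75.lamL ez
    refine le_of_log (by positivity) (by positivity) ?_
    simp (disch := positivity) only [Real.log_mul, Real.log_rpow, Real.log_pow, Real.log_div]
    push_cast
    linarith
  have x3 : 3 * ((|rq b y a| + 1) * P) / √(Uq (2 * q) n y T) ≤ ez n / 3 := by
    have y3 : 3 * ((|rq b y a| + 1) * P) / √(Uq (2 * q) n y T) ≤
        3 * ((n : ℝ) ^ q * (n : ℝ) ^ (-(1 / 2 : ℝ))) / √(Uq (2 * q) n y T) := by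
      refine div_le_div_of_nonneg_right (mul_le_mul_of_nonneg_left ?_ (by norm_num))
        (Real.sqrt_nonneg _)
      exact mul_le_mul h.rq_le hP hP0 (by positivity)
    have hyU := (h.U_facts hT hT2).2.1
    have y4 : 3 * ((n : ℝ) ^ q * (n : ℝ) ^ (-(1 / 2 : ℝ))) / √(Uq (2 * q) n y T) ≤
        3 * ((n : ℝ) ^ q * (n : ℝ) ^ (-(1 / 2 : ℝ))) / √y :=
      div_le_div_of_nonneg_left (by positivity) (Real.sqrt_pos.2 hy) (Real.sqrt_le_sqrt hyU)
    refine (y3.trans y4).trans ?_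
    unfold ez
    refine le_of_log (by positivity) (by positivity) ?_
    simp (disch := positivity) only [Real.log_mul, Real.log_rpow, Real.log_div, Real.log_sqrt]
    linarith
  linarith

/-- the rank one number -/
lemma ZW.rk_num {K : ℝ} (h : ZW K q A b n y V a) {G : ℝ} (hG0 : 0 ≤ G)
    (hG : G ≤ (n : ℝ) ^ (3 * q) * y) :
    6 * G / (y ^ 2 * (V - sL (1 / 10) n y ^ 2) * (uP q n y V - uQ q q n y V) * n) ≤
      ez n ^ 2 := by
  obtain ⟨f1, f2, f3, f4, f5, f6, f7, f8, f9, f10, f11, f12⟩ := h.facts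
  obtain ⟨hA, a1, a2⟩ := h.adm
  obtain ⟨u1, u2, u3, u4, u5⟩ := h.u_facts
  have hn := h.n0
  have hy := h.y0
  have hV := h.V0
  have o1 : 0 < (n : ℝ) ^ (-q) := Real.rpow_pos_of_pos hn _
  have hvp : 0 ≤ V - sL (1 / 10) n y ^ 2 := by linarith
  have h2 : 6 * G / (y ^ 2 * (V - sL (1 / 10) n y ^ 2) * (uP q n y V - uQ q q n y V) * n) ≤
      6 * ((n : ℝ) ^ (3 * q) * y) / (y ^ 2 * (V / 2) * ((n : ℝ) ^ (-q) / 2) * n) := by
    gcongr
  refine h2.trans ?_
  unfold ez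
  refine le_of_log (by positivity) (by positivity) ?_
  simp (disch := positivity) only [Real.log_mul, Real.log_rpow, Real.log_pow, Real.log_div]
  have c6 := log_c 6 (by norm_num)
  have c2 := log_c 2 (by norm_num)
  push_cast
  linarith

lemma ZW.inc_num {K : ℝ} (h : ZW K q A b n y V a) {G : ℝ} (hG0 : 0 ≤ G)
    (hG : G ≤ (n : ℝ) ^ (3 * q) * y) :
    6 * (n * ((1 + etaL (1 / 4) n) ^ 2 * G)) / (mz q n y + 1) / n ≤ ez n := by
  obtain ⟨f1, f2, f3, f4, f5, f6, f7, f8, f9, f10, f11, f12⟩ := h.facts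
  obtain ⟨k1, k2, k3, k4, k5, k6, k7, k8, k9⟩ := h.bd
  obtain ⟨s1, s2, s3, s4, s5⟩ := h.sz
  obtain ⟨m1, m2, m3⟩ := h.mz_facts
  have hn := h.n0
  have hy := h.y0
  have h3 : (1 + etaL (1 / 4) n) ^ 2 ≤ 2 := by nlinarith
  have h4 : (n : ℝ) ^ (1 - q - 40 * q) * y ^ 2 ≤ mz q n y + 1 := by linarith
  have h5 : 0 < (n : ℝ) ^ (1 - q - 40 * q) * y ^ 2 := by positivity
  have hG1 : 0 ≤ G := hG0
  have h2 : 6 * (n * ((1 + etaL (1 / 4) n) ^ 2 * G)) / (mz q n y + 1) / n ≤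
      6 * (n * (2 * ((n : ℝ) ^ (3 * q) * y))) / ((n : ℝ) ^ (1 - q - 40 * q) * y ^ 2) / n := by
    gcongr
  refine h2.trans ?_
  unfold ez
  refine le_of_log (by positivity) (by positivity) ?_
  simp (disch := positivity) only [Real.log_mul, Real.log_rpow, Real.log_pow, Real.log_div]
  have c6 := log_c 6 (by norm_num)
  have c2 := log_c 2 (by norm_num)
  push_cast
  linarith

lemma ZW.rb_num {K : ℝ} (h : ZW K q A b n y V a) {G : ℝ} (hG0 : 0 ≤ G)
    (hG : G ≤ (n : ℝ) ^ (3 * q) * y) :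
    6 * G ^ 2 / (2 * (y ^ 2 * b ^ 2 * (TL q n y / 4) * n)) ≤ ez n := by
  obtain ⟨f1, f2, f3, f4, f5, f6, f7, f8, f9, f10, f11, f12⟩ := h.facts
  have hn := h.n0
  have hy := h.y0
  have hb := h.b0
  have h2 : 6 * G ^ 2 / (2 * (y ^ 2 * b ^ 2 * (TL q n y / 4) * n)) ≤
      6 * ((n : ℝ) ^ (3 * q) * y) ^ 2 / (2 * (y ^ 2 * b ^ 2 * (TL q n y / 4) * n)) := by
    have : 0 < TL q n y := by
      unfold H470.TL
      positivity
    gcongr
  refine h2.trans ?_
  unfold ez H470.TL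
  refine le_of_log (by positivity) (by positivity) ?_
  simp (disch := positivity) only [Real.log_mul, Real.log_rpow, Real.log_pow, Real.log_div]
  have c6 := log_c 6 (by norm_num)
  have c4 := log_c 4 (by norm_num)
  have c2' : 0 ≤ Real.log 2 := Real.log_nonneg (by norm_num)
  push_cast
  linarith

/-- the error of one point -/
lemma ZW.e0_num (h : ZW (Kz b) q A b n y V a) (hC : 0 < Cz b) {U : ℝ} (hU0 : 0 < U)
    (hU : U ≤ (n : ℝ) ^ (3 * q) * y) :
    Cz b * (ez n / (k0 b * y) + U ^ 4 / (k0 b * y) * (n : ℝ) ^ (-(40 * q)) +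
      ((n : ℝ) ^ (-(22 * q)) * y ^ 3) ^ 2 * U + ((n : ℝ) ^ (-(22 * q)) * y ^ 3) ^ 4 / (k0 b * y)) ≤
      (n : ℝ) ^ (-(22 * q)) * y ^ 3 := by
  obtain ⟨f1, f2, f3, f4, f5, f6, f7, f8, f9, f10, f11, f12⟩ := h.facts
  obtain ⟨g1, g2, g3⟩ := h.kfacts
  have hn := h.n0
  have hy := h.y0
  have hk := k0_pos h.b0
  have c4 := log_c 4 (by norm_num)
  have hU4 : U ^ 4 ≤ ((n : ℝ) ^ (3 * q) * y) ^ 4 := pow_le_pow_left₀ hU0.le hU 4
  have x1 : Cz b * (ez n / (k0 b * y)) ≤ (n : ℝ) ^ (-(22 * q)) * y ^ 3 / 4 := by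
    unfold ez
    refine le_of_log (by positivity) (by positivity) ?_
    simp (disch := positivity) only [Real.log_mul, Real.log_rpow, Real.log_pow, Real.log_div]
    push_cast
    linarith
  have x2 : Cz b * (U ^ 4 / (k0 b * y) * (n : ℝ) ^ (-(40 * q))) ≤
      (n : ℝ) ^ (-(22 * q)) * y ^ 3 / 4 := by
    have x3 : Cz b * (U ^ 4 / (k0 b * y) * (n : ℝ) ^ (-(40 * q))) ≤
        Cz b * (((n : ℝ) ^ (3 * q) * y) ^ 4 / (k0 b * y) * (n : ℝ) ^ (-(40 * q))) := by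
      gcongr
    refine x3.trans ?_
    refine le_of_log (by positivity) (by positivity) ?_
    simp (disch := positivity) only [Real.log_mul, Real.log_rpow, Real.log_pow, Real.log_div]
    push_cast
    linarith
  have x3 : Cz b * (((n : ℝ) ^ (-(22 * q)) * y ^ 3) ^ 2 * U) ≤
      (n : ℝ) ^ (-(22 * q)) * y ^ 3 / 4 := by
    have x4 : Cz b * (((n : ℝ) ^ (-(22 * q)) * y ^ 3) ^ 2 * U) ≤
        Cz b * (((n : ℝ) ^ (-(22 * q)) * y ^ 3) ^ 2 * ((n : ℝ) ^ (3 * q) * y)) := by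
      gcongr
    refine x4.trans ?_
    refine le_of_log (by positivity) (by positivity) ?_
    simp (disch := positivity) only [Real.log_mul, Real.log_rpow, Real.log_pow, Real.log_div]
    push_cast
    linarith
  have x4 : Cz b * (((n : ℝ) ^ (-(22 * q)) * y ^ 3) ^ 4 / (k0 b * y)) ≤
      (n : ℝ) ^ (-(22 * q)) * y ^ 3 / 4 := by
    refine le_of_log (by positivity) (by positivity) ?_
    simp (disch := positivity) only [Real.log_mul, Real.log_rpow, Real.log_pow, Real.log_div]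
    push_cast
    linarith
  linarith

/-- the sum of all the terms of the point -/
lemma ZW.fin_num (h : ZW (Kz b) q A b n y V a) {U : ℝ} (hU0 : 0 < U)
    (hU : U ≤ (n : ℝ) ^ (3 * q) * y) :
    16 * ((n : ℝ) ^ (-(22 * q)) * y ^ 3 + (n : ℝ) ^ (-(22 * q)) * y ^ 3) / (b * y) +
      16 * (2 * A * ((n : ℝ) ^ (-(10 * q)) * y ^ 2) / (b * y)) ^ 2 +
      4 * (etaL (1 / 4) n * (2 + etaL (1 / 4) n)) ^ 2 * U ^ 2 + 2 * ez n ^ 2 ≤
      (n : ℝ) ^ (-(18 * q)) * y ^ 2 := by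
  obtain ⟨f1, f2, f3, f4, f5, f6, f7, f8, f9, f10, f11, f12⟩ := h.facts
  obtain ⟨k1, k2, k3, k4, k5, k6, k7, k8, k9⟩ := h.bd
  obtain ⟨s1, s2, s3, s4, s5⟩ := h.sz
  have hn := h.n0
  have hy := h.y0
  have hb := h.b0
  have hA : 0 < A := by linarith [h.A1]
  have c4 := log_c 4 (by norm_num)
  have c2 := log_c 2 (by norm_num)
  have c32 := log_c 32 (by norm_num)
  have c16 := log_c 16 (by norm_num)
  have c36 := log_c 36 (by norm_num)
  have x1 : 16 * ((n : ℝ) ^ (-(22 * q)) * y ^ 3 + (n : ℝ) ^ (-(22 * q)) * y ^ 3) / (b * y) ≤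
      (n : ℝ) ^ (-(18 * q)) * y ^ 2 / 4 := by
    have e : 16 * ((n : ℝ) ^ (-(22 * q)) * y ^ 3 + (n : ℝ) ^ (-(22 * q)) * y ^ 3) / (b * y) =
        32 * ((n : ℝ) ^ (-(22 * q)) * y ^ 3) / (b * y) := by ring
    rw [e]
    refine le_of_log (by positivity) (by positivity) ?_
    simp (disch := positivity) only [Real.log_mul, Real.log_rpow, Real.log_pow, Real.log_div]
    push_cast
    linarith
  have x2 : 16 * (2 * A * ((n : ℝ) ^ (-(10 * q)) * y ^ 2) / (b * y)) ^ 2 ≤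
      (n : ℝ) ^ (-(18 * q)) * y ^ 2 / 4 := by
    refine le_of_log (by positivity) (by positivity) ?_
    simp (disch := positivity) only [Real.log_mul, Real.log_rpow, Real.log_pow, Real.log_div]
    push_cast
    linarith
  have x3 : 4 * (etaL (1 / 4) n * (2 + etaL (1 / 4) n)) ^ 2 * U ^ 2 ≤
      (n : ℝ) ^ (-(18 * q)) * y ^ 2 / 4 := by
    have z1 : etaL (1 / 4) n * (2 + etaL (1 / 4) n) ≤ 3 * etaL (1 / 4) n := by nlinarith
    have z2 : (etaL (1 / 4) n * (2 + etaL (1 / 4) n)) ^ 2 ≤ (3 * etaL (1 / 4) n) ^ 2 :=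
      pow_le_pow_left₀ (by positivity) z1 2
    have z3 : U ^ 2 ≤ ((n : ℝ) ^ (3 * q) * y) ^ 2 := pow_le_pow_left₀ hU0.le hU 2
    have z4 : 4 * (etaL (1 / 4) n * (2 + etaL (1 / 4) n)) ^ 2 * U ^ 2 ≤
        4 * (3 * etaL (1 / 4) n) ^ 2 * ((n : ℝ) ^ (3 * q) * y) ^ 2 := by gcongr
    refine z4.trans ?_
    have e : 4 * (3 * etaL (1 / 4) n) ^ 2 * ((n : ℝ) ^ (3 * q) * y) ^ 2 =
        36 * (etaL (1 / 4) n ^ 2 * ((n : ℝ) ^ (3 * q) * y) ^ 2) := by ring
    rw [e]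
    unfold H75.etaL
    refine le_of_log (by positivity) (by positivity) ?_
    simp (disch := positivity) only [Real.log_mul, Real.log_rpow, Real.log_pow, Real.log_div]
    push_cast
    linarith
  have x4 : 2 * ez n ^ 2 ≤ (n : ℝ) ^ (-(18 * q)) * y ^ 2 / 4 := by
    unfold ez
    refine le_of_log (by positivity) (by positivity) ?_
    simp (disch := positivity) only [Real.log_mul, Real.log_rpow, Real.log_pow, Real.log_div]
    push_cast
    linarith
  linarith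

end window

lemma Sn_anti {n m m' : ℕ} (h : m ≤ m') : Sn n m' ⊆ Sn n m := by
  intro i hi
  simp only [Sn, Finset.mem_filter, Finset.mem_univ, true_and] at hi ⊢
  omega

lemma tan_alg {a : ℝ} (ha : -1 < a) : 1 - 1 / (1 + a) ^ 2 ≤ 2 * a := by
  have h1 : 0 < 1 + a := by linarith
  have h2 : 0 < (1 + a) ^ 2 := by positivity
  rw [sub_le_iff_le_add, ← sub_le_iff_le_add', le_div_iff₀ h2]
  have e : (1 - 2 * a) * (1 + a) ^ 2 = 1 - a ^ 2 * (3 + 2 * a) := by ring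
  rw [e]
  have : 0 ≤ a ^ 2 * (3 + 2 * a) := mul_nonneg (sq_nonneg _) (by linarith)
  linarith

lemma Cz_pos {b : ℝ} (hb : 0 < b) : 0 < Cz b := by
  unfold Cz
  positivity

/-- the data of a typical point -/
structure ZP (q b : ℝ) (n : ℕ) (y V a T u : ℝ) (m : ℕ) : Prop where
  Ta : TL q n y / 4 ≤ T
  Tb : T ≤ TL q n y / 2
  u0 : uQ q q n y V ≤ u
  u1 : u ≤ uP q n y V
  m0 : mz q n y ≤ m
  m1 : m ≤ 2 * mz q n y
  rk : (LL q b n y V a).rk (Sn n m) (1 - T) u ≤ ez n ^ 2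
  rk1 : (LL q b n y V a).rk (Sn n (m - 1)) (1 - T) u ≤ ez n ^ 2
  inc : ∃ I, 0 ≤ I ∧ I / n ≤ ez n ∧ ∀ i0 : Fin n, i0.1 + m = n →
    incL (LL q b n y V a) (H418.cb (1 - T)) (H418.cf (V - sL (1 / 10) n y ^ 2) u) (Sn n m)
      (Kset (Sn n m) {true} {true}) (Kset (insert i0 (Sn n m)) {true} {true}) ≤ I
  k4 : rbL (LL q b n y V a) (H418.cb (1 - T)) (H418.cf (V - sL (1 / 10) n y ^ 2) u)
      (Sn n (m - 1)) (Kset (Sn n (m - 1)) {true} {true}) ≤ (n : ℝ) ^ 4 * ez n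

/-- the typical point exists -/
theorem z2_typ {K q A b : ℝ} {n : ℕ} {y V a : ℝ} (h : ZW K q A b n y V a)
    (hap : ∀ T, 0 < T → T ≤ 1 → ∀ u ∈ Icc (0 : ℝ) 1, ApN (2 * q) 10 (LL q b n y V a) T u) :
    ∃ T u m, ZP q b n y V a T u m := by
  obtain ⟨m1, m2, m3⟩ := h.mz_facts
  obtain ⟨hA, a1, a2⟩ := h.adm
  obtain ⟨u1, u2, u3, u4, u5⟩ := h.u_facts
  obtain ⟨s1, s2, s3, s4, s5⟩ := h.sz
  have hn := h.n0
  have hy := h.y0
  have hT1 : 0 < TL q n y := by
    unfold H470.TL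
    positivity
  obtain ⟨T0, T1, -, -⟩ := h.TL_facts (T := TL q n y / 2) (by linarith) le_rfl
  obtain ⟨t, ht, u, hu, m, hm, hty⟩ := typ1 (L := LL q b n y V a) hA (m1 := mz q n y)
    (m2 := 2 * mz q n y) m2 (by omega) (t0 := 1 - TL q n y / 2) (t1 := 1 - TL q n y / 4)
    (u0 := uQ q q n y V) (u1 := uP q n y V) (by linarith) (by linarith) (by linarith) u1 u2 u4
  obtain ⟨T, hT⟩ : ∃ T, T = 1 - t := ⟨_, rfl⟩
  have ht' : t = 1 - T := by linarith
  subst ht'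
  have hTa : TL q n y / 4 ≤ T := by linarith [ht.2]
  have hTb : T ≤ TL q n y / 2 := by linarith [ht.1]
  obtain ⟨hT0, hT1', -, -⟩ := h.TL_facts hTa hTb
  have hu0 : 0 < u := by linarith [hu.1]
  have hu1 : u ≤ 1 := hu.2.trans u4
  have hmI := Finset.mem_Icc.1 hm
  have hty' := hty Bool Bool (H418.cb (1 - T)) (H418.cf (LL q b n y V a).vp u) {true} {true}
    (sh_can hA (by linarith) (by linarith) hu0.le hu1)
  obtain ⟨v1, v2, v3⟩ := h.U_facts (T := TL q n y / 4) le_rfl (by linarith)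
  have hG0 : 0 ≤ Uq (2 * q) n y (TL q n y / 4) := (Uq_pos hn hy (by linarith)).le
  have hG := (hap (TL q n y / 4) (by linarith) (by linarith) (uP q n y V)
    ⟨by linarith, u4⟩).m1 Finset.univ
  have hx : 0 < (LL q b n y V a).x := hy
  have hdu : 0 < uP q n y V - uQ q q n y V :=
    lt_of_lt_of_le (by positivity) u5
  have edt : 1 - TL q n y / 4 - (1 - TL q n y / 2) = TL q n y / 4 := by ring
  have eM : ((2 * mz q n y : ℕ) : ℝ) - mz q n y + 1 = mz q n y + 1 := by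
    push_cast
    ring
  rw [edt, eM] at hty'
  have hrk : ∀ S : Finset (Fin n), S = Sn n m ∨ S = Sn n (m - 1) →
      (LL q b n y V a).rk S (1 - T) u ≤ ez n ^ 2 := fun S hS =>
    (rk_typ (L := LL q b n y V a) hA hx hdu (by norm_num) hty' hG hG0 hS).trans
      (h.rk_num hG0 v1)
  have hM0 : (0 : ℝ) < mz q n y + 1 := by positivity
  have hrb : rbL (LL q b n y V a) (H418.cb (1 - T)) (H418.cf (LL q b n y V a).vp u)
      (Sn n (m - 1)) (Kset (Sn n (m - 1)) {true} {true}) / (n : ℝ) ^ 4 ≤ ez n :=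
    (rb_typ (L := LL q b n y V a) hA hx (by linarith) (by norm_num) hty' hG (Or.inr rfl)).trans
      (h.rb_num hG0 v1)
  refine ⟨T, u, m, hTa, hTb, hu.1, hu.2, hmI.1, hmI.2, hrk _ (Or.inl rfl), hrk _ (Or.inr rfl),
    ⟨6 * (n * ((1 + etaL (1 / 4) n) ^ 2 * Uq (2 * q) n y (TL q n y / 4))) / (mz q n y + 1),
      by positivity, h.inc_num hG0 v1, fun i0 hi =>
        inc_typ (L := LL q b n y V a) hA (by norm_num) hM0 hty' hG hG0 hi⟩, ?_⟩
  rwa [div_le_iff₀ (by positivity), mul_comm] at hrb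

/-- the amplitude is stuck with small probability -/
lemma ps_half {q b : ℝ} {n : ℕ} {y V a T u : ℝ} (hn : 1 < n)
    (hP : ApN (2 * q) 10 (LL q b n y V a) T u) :
    √(H615.PstL (LL q b n y V a) (1 - T) u) ≤ (n : ℝ) ^ (-(1 / 2 : ℝ)) := by
  have hn0 : (0 : ℝ) < n := by exact_mod_cast (by omega : 0 < n)
  have y1 : H615.PstL (LL q b n y V a) (1 - T) u ≤ (n : ℝ) ^ (-(10 : ℝ)) := hP.ps
  have y2 : (n : ℝ) ^ (-(10 : ℝ)) ≤ ((n : ℝ) ^ (-(1 / 2 : ℝ))) ^ 2 := by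
    rw [← Real.rpow_natCast, ← Real.rpow_mul hn0.le]
    exact Real.rpow_le_rpow_of_exponent_le (by exact_mod_cast hn.le) (by norm_num)
  have y3 : 0 ≤ (n : ℝ) ^ (-(1 / 2 : ℝ)) := Real.rpow_nonneg hn0.le _
  rw [← Real.sqrt_sq y3]
  exact Real.sqrt_le_sqrt (y1.trans y2)

/-- the small multiple absorbs the last square -/
lemma k0_abs {b y a η : ℝ} (hb : 0 < b) (hy : 0 < y) (hη : 0 ≤ η) (hη1 : η ≤ 1 / 2)
    (ha : |a| ≤ 1 / 1000) :
    H317.CBc b η * (528 * (k0 b * y) + 16 * (k0 b * y)) ≤ (1 + a) ^ 2 * (1 / 4 * (b * y)) := by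
  have hal := abs_le.1 ha
  have hk0 := k0_pos hb
  have z1 : H317.CBc b η ≤ CB b := by
    unfold CB H317.CBc
    have : (1 + η) ^ 2 ≤ (1 + 1 / 2) ^ 2 :=
      pow_le_pow_left₀ (by linarith) (by linarith) 2
    gcongr
  have z2 := CB_pos hb
  have z3 : k0 b ≤ b / (4352 * CB b) := min_le_right _ _
  have z4 : CB b * k0 b ≤ b / 4352 := by
    have := mul_le_mul_of_nonneg_left z3 z2.le
    refine this.trans (le_of_eq ?_)
    field_simp
  have z5 : H317.CBc b η * (528 * (k0 b * y) + 16 * (k0 b * y)) ≤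
      CB b * (544 * (k0 b * y)) := by
    have e : 528 * (k0 b * y) + 16 * (k0 b * y) = 544 * (k0 b * y) := by ring
    rw [e]
    exact mul_le_mul_of_nonneg_right z1 (by positivity)
  have z6 : CB b * (544 * (k0 b * y)) ≤ b / 8 * y := by
    have e : CB b * (544 * (k0 b * y)) = 544 * (CB b * k0 b) * y := by ring
    rw [e]
    exact mul_le_mul_of_nonneg_right (by linarith) hy.le
  have z7 : 1 / 2 ≤ (1 + a) ^ 2 := by nlinarith
  have z8 : 1 / 2 * (1 / 4 * (b * y)) ≤ (1 + a) ^ 2 * (1 / 4 * (b * y)) :=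
    mul_le_mul_of_nonneg_right z7 (by positivity)
  linarith

lemma at_alg {a T : ℝ} (ha : |a| ≤ 1 / 1000) (hT : T ≤ 1 / 1000) :
    1 - 1 / 4 ≤ (1 + a) * (1 - T) ^ 2 := by
  have hal := abs_le.1 ha
  have h1 : (998 / 1000 : ℝ) ≤ (1 - T) ^ 2 := by nlinarith
  nlinarith

/-- the small numbers -/
lemma ez_facts {n : ℕ} (hn : 1 < n) : 0 < ez n ∧ ez n ≤ 1 ∧ (n : ℝ) ^ (-(10 : ℝ)) ≤ ez n ∧
    etaL (1 / 4) n ≤ ez n ∧ ez n ^ 2 ≤ ez n := by
  have hn0 : (0 : ℝ) < n := by exact_mod_cast (by omega : 0 < n)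
  have h1 : (1 : ℝ) ≤ n := by exact_mod_cast hn.le
  have hez : 0 < ez n := Real.rpow_pos_of_pos hn0 _
  have hez1 : ez n ≤ 1 := Real.rpow_le_one_of_one_le_of_nonpos h1 (by norm_num)
  refine ⟨hez, hez1, Real.rpow_le_rpow_of_exponent_le h1 (by norm_num),
    Real.rpow_le_rpow_of_exponent_le h1 (by norm_num), ?_⟩
  rw [sq]
  exact mul_le_of_le_one_left hez.le hez1

/-- **One typical point of the zone.** -/
theorem z2_pt {q A b : ℝ} {n : ℕ} {y V a T u : ℝ} {m : ℕ} (h : ZW (Kz b) q A b n y V a)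
    (hp : ZP q b n y V a T u m) (hP : ApN (2 * q) 10 (LL q b n y V a) T u)
    (hbr : (LL q b n y V a).ex' (1 - T) u (H317.ind (k0 b * y)
      ((LL q b n y V a).Q (Sn n m) (1 - T) u)) ≤ (n : ℝ) ^ (-(40 * q))) :
    (LL q b n y V a).rr (Sn n m) (1 - T) u ≤ (n : ℝ) ^ (-(18 * q)) * y ^ 2 := by
  obtain ⟨k1, k2, k3, k4, k5, k6, k7, k8, k9⟩ := h.bd
  obtain ⟨s1, s2, s3, s4, s5⟩ := h.sz
  obtain ⟨m1, m2, m3⟩ := h.mz_facts
  obtain ⟨hA, a1, a2⟩ := h.adm
  obtain ⟨u1, u2, u3, u4, u5⟩ := h.u_facts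
  obtain ⟨e1, e2, e3, e4, e5⟩ := ez_facts h.n1
  obtain ⟨hT0, hT1', -, -⟩ := h.TL_facts hp.Ta hp.Tb
  obtain ⟨w1, w2, w3⟩ := h.U_facts hp.Ta hp.Tb
  obtain ⟨I, hI0, hIn, hI⟩ := hp.inc
  have hn := h.n0
  have hy := h.y0
  have hb := h.b0
  have hA0 : 0 < A := by linarith [h.A1]
  have hal := abs_le.1 k9
  have hu0 : 0 < u := by linarith [hp.u0]
  have hu1 : u ≤ 1 := hp.u1.trans u4
  have hm1 : 1 ≤ m := m2.trans hp.m0
  have hm2 : (m : ℝ) ≤ n / 2 := by
    have : (m : ℝ) ≤ 2 * (mz q n y : ℝ) := by exact_mod_cast hp.m1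
    linarith
  have hmn : m < n := by
    have : (m : ℝ) < n := by linarith
    exact_mod_cast this
  have hU0 : 0 < Uq (2 * q) n y T := Uq_pos hn hy hT0
  have hnm : n - m < n := by omega
  have hi : (⟨n - m, hnm⟩ : Fin n).1 + m = n := by
    show n - m + m = n
    omega
  have hθ := h.th_num hp.Ta hp.Tb hp.m0 (ps_half h.n1 hP) (Real.sqrt_nonneg _)
  have hwf := h.wf_le (u := u) ⟨hu0.le, hu1⟩
  have hW : (n : ℝ) ^ (-(22 * q)) * y ^ 3 ≤ y := by
    have o1 : (n : ℝ) ^ (-(22 * q)) ≤ 1 :=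
      Real.rpow_le_one_of_one_le_of_nonpos (by exact_mod_cast h.n1.le) (by linarith [h.q0])
    have o2 : y ^ 3 ≤ 1 * y := by
      have : y ^ 2 ≤ 1 := pow_le_one₀ hy.le (by linarith)
      calc y ^ 3 = y ^ 2 * y := by ring
        _ ≤ 1 * y := mul_le_mul_of_nonneg_right this hy.le
    calc (n : ℝ) ^ (-(22 * q)) * y ^ 3 ≤ 1 * (1 * y) :=
          mul_le_mul o1 o2 (by positivity) zero_le_one
      _ = y := by ring
  have hk0 := k0_pos hb
  have hl0 : 0 < k0 b * y := by positivity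
  have hlU : k0 b * y ≤ Uq (2 * q) n y T := by
    have : k0 b * y ≤ 1 * y := mul_le_mul_of_nonneg_right (min_le_left _ _) hy.le
    linarith
  have hy1 : y < 1 := by linarith
  have hbk : b * (1 - (1 - y) * rq b y a) = 1 + a := b_rq hb hy1
  have hkp : 1 - (1 - y) * rq b y a = (1 + a) / b := rq_eq hy1
  have hvp : 0 < V - sL (1 / 10) n y ^ 2 := by
    have := h.V0
    linarith
  have hE : E2z b y (1 - (1 - y) * rq b y a) (etaL (1 / 4) n) (Uq (2 * q) n y T) (ez n)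
        (u * (V - sL (1 / 10) n y ^ 2) / b ^ 2) (k0 b * y) (k0 b * y) I n m (ez n ^ 2)
        (ez n ^ 2) (ez n) ((n : ℝ) ^ (-(40 * q))) (ez n) ≤ (n : ℝ) ^ (-(22 * q)) * y ^ 3 := by
    refine (e2z_le (W := (n : ℝ) ^ (-(22 * q)) * y ^ 3) (ε := ez n) hb hy hy1.le (by
        rw [hbk]
        linarith) (by
        rw [hkp]
        exact div_le_div_of_nonneg_right (by linarith) hb.le) s4.le e4 e2 hU0 (by linarith)
        e1.le le_rfl (by positivity) (by linarith) hwf hl0 hlU hn hm2 hI0 hIn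
        (by rw [Real.sqrt_sq e1.le]) e5 le_rfl (by positivity) le_rfl).trans ?_
    exact h.e0_num (Cz_pos hb) hU0 w1
  have hc : (LL q b n y V a).c = (LL q b n y V a).s ^ 2 * (LL q b n y V a).n *
      (1 - (1 - (LL q b n y V a).x) * rq b y a) := by
    show H529.cc n b (sL (1 / 10) n y) a = sL (1 / 10) n y ^ 2 * n * (1 - (1 - y) * rq b y a)
    rw [hkp]
    unfold H529.cc
    field_simp
  have hk : 0 < (LL q b n y V a).b * (1 - (1 - (LL q b n y V a).x) * rq b y a) := by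
    show 0 < b * (1 - (1 - y) * rq b y a)
    rw [hbk]
    linarith
  have hAt : 1 - 1 / 4 ≤ (LL q b n y V a).b * (1 - (1 - (LL q b n y V a).x) * rq b y a) *
      (1 - T) ^ 2 := by
    show 1 - 1 / 4 ≤ b * (1 - (1 - y) * rq b y a) * (1 - T) ^ 2
    rw [hbk]
    exact at_alg k9 hT1'
  have ha : 1 - 1 / ((LL q b n y V a).b * (1 - (1 - (LL q b n y V a).x) * rq b y a)) ^ 2 ≤
      2 * a := by
    show 1 - 1 / (b * (1 - (1 - y) * rq b y a)) ^ 2 ≤ 2 * a
    rw [hbk]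
    exact tan_alg (by linarith)
  have hl : H317.CBc (LL q b n y V a).b (LL q b n y V a).η *
      (528 * (k0 b * y) + 16 * (k0 b * y)) ≤
      ((LL q b n y V a).b * (1 - (1 - (LL q b n y V a).x) * rq b y a)) ^ 2 *
        (1 / 4 * ((LL q b n y V a).b * (LL q b n y V a).x)) := by
    show H317.CBc b (etaL (1 / 4) n) * (528 * (k0 b * y) + 16 * (k0 b * y)) ≤
        (b * (1 - (1 - y) * rq b y a)) ^ 2 * (1 / 4 * (b * y))
    rw [hbk]
    exact k0_abs hb hy s4.le (by linarith) k9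
  have ha2 : 2 * a ≤ 2 * A * ((n : ℝ) ^ (-(10 * q)) * y ^ 2) := by
    have := h.au
    linarith
  have hxb : 8 * (y ^ 2 * b ^ 2) ≤ 1 := by linarith [sq_nonneg (y * b), mul_pow y b 2]
  have hwU : u * (V - sL (1 / 10) n y ^ 2) / b ^ 2 ≤ Uq (2 * q) n y T := by linarith
  have key := z2_point (L := LL q b n y V a) hA (show etaL (1 / 4) n ≤ 1 / 2 by linarith)
    s1.ne' hy hy1 hc hk hm1 hmn hT0.le (by linarith) hu0
    (i0 := ⟨n - m, hnm⟩) hi (e' := 1 / 4) (e3 := 1 / 4) hAt ha (by norm_num) hl hwU hU0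
    (by linarith) hxb (hP.m1 _) (hP.m1 _) (hP.m2 _) hθ hl0 hlU hl0 hlU (hI _ hi) hp.rk hp.rk1
    hp.k4 hbr ((hP.tC _).trans e3) ((hP.tQ _).trans e3) (by positivity) ha2 hwf hE
  exact key.trans (h.fin_num hU0 w1)

theorem z2_one {q A b : ℝ} {n : ℕ} {y V a : ℝ} (h : ZW (Kz b) q A b n y V a)
    (hap : ∀ T, 0 < T → T ≤ 1 → ∀ u ∈ Icc (0 : ℝ) 1, ApN (2 * q) 10 (LL q b n y V a) T u)
    (hbr : ∀ T, TL q n y / 4 ≤ T → T ≤ TL q n y / 2 → ∀ u, 0 ≤ u → u ≤ uP q n y V →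
      ∀ m : ℕ, mz q n y ≤ m → m ≤ 2 * mz q n y →
        (LL q b n y V a).ex' (1 - T) u (H317.ind (k0 b * y)
          ((LL q b n y V a).Q (Sn n m) (1 - T) u)) ≤ (n : ℝ) ^ (-(40 * q))) :
    (LL q b n y V a).rr (Sn n (2 * mz q n y)) (1 - TL q n y / 2) (uQ q q n y V) ≤
      (n : ℝ) ^ (-(18 * q)) * y ^ 2 := by
  obtain ⟨T, u, m, hp⟩ := z2_typ h hap
  obtain ⟨hA, a1, a2⟩ := h.adm
  obtain ⟨u1, u2, u3, u4, u5⟩ := h.u_facts
  obtain ⟨hT0, hT1', -, -⟩ := h.TL_facts hp.Ta hp.Tb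
  have hu0 : 0 < u := by linarith [hp.u0]
  have hu1 : u ≤ 1 := hp.u1.trans u4
  have key := z2_pt h hp (hap T hT0 (by linarith) u ⟨hu0.le, hu1⟩)
    (hbr T hp.Ta hp.Tb u hu0.le hp.u1 m hp.m0 hp.m1)
  obtain ⟨T0, T1, -, -⟩ := h.TL_facts (T := TL q n y / 2) (by linarith [hp.Ta, hp.Tb]) le_rfl
  refine le_trans ?_ key
  exact H643.rr_mono hA.lam0 hA.η0 hA.vp0 (Sn_anti hp.m1) (by linarith) (by linarith [hp.Tb])
    (by linarith) u1 hp.u0 hu1

/-- **The zone `Z2` of LC.** -/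
theorem z2_far {b b₁ b₀ q : ℝ} (hb : 0 < b) (hq : 0 < q) (hq0 : 100000 * q ≤ b₀) (hb₀ : b₀ ≤ b₁)
    (hb₁ : b₁ ≤ 1 / 100) (hbr : BrLcW b b₁ b₀ q) :
    ∀ A : ℝ, 1 ≤ A → ∀ᶠ n : ℕ in atTop, ∀ y V a : ℝ, ZD b₁ b₀ q A b n y V a →
      ∀ T, TL q n y / 2 ≤ T → T ≤ (n : ℝ) ^ (6 * q) * y ^ 2 →
        T * (LL q b n y V a).rr (Sn n (mL q (40 * q) n y)) (1 - T) (uQ q q n y V) ≤
          DL q n y := by
  intro A hA
  filter_upwards [zw_ev (Kz b) (Kz_nonneg b) hq hb hA hq0 hb₀ hb₁,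
    apz_ev (K := Kz b) (A := A) 10 hq hb, hbr (k0 b) (k0_pos hb) A hA] with n h1 h2 h3
  intro y V a hd T hT hT2
  have hw := h1 y V a hd
  obtain ⟨f1, f2, f3, f4, f5, f6, f7, f8, f9, f10, f11, f12⟩ := hw.facts
  obtain ⟨hAd, -, -⟩ := hw.adm
  obtain ⟨u1, u2, u3, u4, u5⟩ := hw.u_facts
  have hn := hw.n0
  have hy := hw.y0
  have hTL : 0 < TL q n y := by
    unfold H470.TL
    positivity
  have hT1 : T ≤ 1 := by
    refine hT2.trans ?_
    refine le_of_log (by positivity) (by positivity) ?_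
    simp (disch := positivity) only [Real.log_mul, Real.log_rpow, Real.log_pow, Real.log_one]
    push_cast
    linarith
  have key := z2_one hw (h2 y V a hw) (fun T hT hT2 u hu hu1 m hm hm2 =>
    h3 y V a hd T hT hT2 u hu hu1 m hm hm2)
  have h4 : (LL q b n y V a).rr (Sn n (mL q (40 * q) n y)) (1 - T) (uQ q q n y V) ≤
      (LL q b n y V a).rr (Sn n (2 * mz q n y)) (1 - TL q n y / 2) (uQ q q n y V) :=
    H643.rr_mono hAd.lam0 hAd.η0 hAd.vp0 (le_refl _) (by linarith) (by linarith) (by linarith)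
      u1 le_rfl (u2.trans u4)
  have hT0 : 0 < T := by linarith
  have h5 := mul_le_mul_of_nonneg_left (h4.trans key) hT0.le
  refine h5.trans ?_
  have h6 : T * ((n : ℝ) ^ (-(18 * q)) * y ^ 2) ≤
      (n : ℝ) ^ (6 * q) * y ^ 2 * ((n : ℝ) ^ (-(18 * q)) * y ^ 2) :=
    mul_le_mul_of_nonneg_right hT2 (by positivity)
  refine h6.trans ?_
  unfold H470.DL
  refine le_of_log (by positivity) (by positivity) ?_
  simp (disch := positivity) only [Real.log_mul, Real.log_rpow, Real.log_pow]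
  push_cast
  linarith

end Vale.Agent.P146.H877
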