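import Vale.Agent.P146.H877.Sph
import Vale.Agent.P146.H785.Transp

/-!
# P146: contiguity, part 2

The second moment method for a mixture of translations of a standard Gaussian vector, and the
Gaussian mixture of the rank one directions `z zᵀ / (ε + |z|²)`.
-/

open MeasureTheory ProbabilityTheory
open scoped ENNReal

namespace Vale.Agent.P146.H877

open Vale.Agent.P157.Lv Vale.Agent.P146.H425

variable {κ : Type} [Fintype κ]

/-- Cameron-Martin. -/
lemma lint_shift (a : κ → ℝ) {f : (κ → ℝ) → ℝ≥0∞} (hf : Measurable f) :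
    ∫⁻ w, f (w + a) ∂(gI κ) =
      ∫⁻ w, ENNReal.ofReal (Real.exp (∑ i, a i * w i - (∑ i, a i ^ 2) / 2)) * f w ∂(gI κ) := by
  have h := pi_tilt (ι := κ) (-a)
  have h1 : ∫⁻ w, f w ∂((gI κ).map (fun J => J - (-a))) = ∫⁻ w, f (w + a) ∂(gI κ) := by
    rw [lintegral_map hf (by fun_prop)]
    simp only [sub_neg_eq_add]
  rw [← h1, h, lintegral_withDensity_eq_lintegral_mul _ (by fun_prop) hf]
  refine lintegral_congr fun w => ?_
  simp only [Pi.mul_apply, Pi.neg_apply, neg_mul, Finset.sum_neg_distrib, neg_neg, neg_sq]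

variable {Ω : Type*} [MeasurableSpace Ω] {ν : Measure Ω} [SFinite ν]

/-- The second moment method for a mixture of translations. -/
theorem tilt_le {s : Ω → κ → ℝ} (hs : Measurable s) {f : (κ → ℝ) → ℝ≥0∞} (hf : Measurable f) :
    ∫⁻ z, ∫⁻ w, f (w + s z) ∂(gI κ) ∂ν ≤
      (∫⁻ w, f w ^ 2 ∂(gI κ)) ^ (1 / 2 : ℝ) *
      (∫⁻ z, ∫⁻ z', ENNReal.ofReal (Real.exp (∑ i, s z i * s z' i)) ∂ν ∂ν) ^ (1 / 2 : ℝ) := by
  obtain ⟨D, hD⟩ : ∃ D : Ω → (κ → ℝ) → ℝ≥0∞, D = fun z w =>
      ENNReal.ofReal (Real.exp (∑ i, s z i * w i - (∑ i, s z i ^ 2) / 2)) := ⟨_, rfl⟩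
  have mD : Measurable (Function.uncurry D) := by
    rw [hD]
    unfold Function.uncurry
    have : ∀ i, Measurable fun p : Ω × (κ → ℝ) => s p.1 i := fun i =>
      (measurable_pi_apply i).comp (hs.comp measurable_fst)
    fun_prop
  obtain ⟨L, hL⟩ : ∃ L : (κ → ℝ) → ℝ≥0∞, L = fun w => ∫⁻ z, D z w ∂ν := ⟨_, rfl⟩
  have mL : Measurable L := by
    rw [hL]
    exact Measurable.lintegral_prod_left' (f := fun p : Ω × (κ → ℝ) => D p.1 p.2) mD
  have e1 : ∫⁻ z, ∫⁻ w, f (w + s z) ∂(gI κ) ∂ν = ∫⁻ w, (f * L) w ∂(gI κ) := by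
    have h1 : ∀ z, ∫⁻ w, f (w + s z) ∂(gI κ) = ∫⁻ w, D z w * f w ∂(gI κ) := by
      intro z
      rw [lint_shift _ hf, hD]
    simp only [h1]
    rw [lintegral_lintegral_swap]
    · refine lintegral_congr fun w => ?_
      rw [Pi.mul_apply, hL, mul_comm]
      simp only
      rw [lintegral_mul_const]
      exact mD.comp measurable_prodMk_right
    · exact (mD.mul (hf.comp measurable_snd)).aemeasurable
  rw [e1]
  have h2 := ENNReal.lintegral_mul_le_Lp_mul_Lq (gI κ) (Real.HolderConjugate.two_two)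
    hf.aemeasurable mL.aemeasurable
  refine h2.trans (le_of_eq ?_)
  congr 1
  · congr 1
    refine lintegral_congr fun w => ?_
    norm_num
  · congr 1
    have h3 : ∀ w, L w ^ (2 : ℝ) = ∫⁻ z, ∫⁻ z', D z w * D z' w ∂ν ∂ν := by
      intro w
      have h4 : ∀ z, ∫⁻ z', D z w * D z' w ∂ν = D z w * L w := by
        intro z
        rw [lintegral_const_mul, hL]
        exact mD.comp measurable_prodMk_right
      simp only [h4]
      rw [lintegral_mul_const, hL]
      · norm_num
        rw [sq]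
      · exact mD.comp measurable_prodMk_right
    simp only [h3]
    rw [lintegral_lintegral_swap]
    · refine lintegral_congr fun z => ?_
      rw [lintegral_lintegral_swap]
      · refine lintegral_congr fun z' => ?_
        have h5 : ∀ w, D z w * D z' w = ENNReal.ofReal (Real.exp (∑ i, (s z i + s z' i) * w i +
            (-((∑ i, s z i ^ 2) / 2) - (∑ i, s z' i ^ 2) / 2))) := by
          intro w
          rw [hD]
          simp only
          rw [← ENNReal.ofReal_mul (Real.exp_pos _).le, ← Real.exp_add]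
          congr 2
          simp only [add_mul]
          rw [Finset.sum_add_distrib]
          ring
        simp only [h5]
        rw [lint_exp_lin]
        congr 2
        have h6 : ∑ i, (s z i + s z' i) ^ 2 = ∑ i, s z i ^ 2 + 2 * ∑ i, s z i * s z' i +
            ∑ i, s z' i ^ 2 := by
          rw [Finset.mul_sum, ← Finset.sum_add_distrib, ← Finset.sum_add_distrib]
          exact Finset.sum_congr rfl fun i _ => by ring
        rw [h6]
        ring
      · have m1 : Measurable fun p : (κ → ℝ) × Ω => D z p.1 :=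
          (mD.comp measurable_prodMk_left).comp measurable_fst
        have m2 : Measurable fun p : (κ → ℝ) × Ω => D p.2 p.1 := mD.comp measurable_swap
        exact (m1.mul m2).aemeasurable
    · have m3 : Measurable fun q : ((κ → ℝ) × Ω) × Ω => D q.1.2 q.1.1 * D q.2 q.1.1 := by
        have m1 : Measurable fun q : ((κ → ℝ) × Ω) × Ω => D q.1.2 q.1.1 :=
          mD.comp ((measurable_snd.comp measurable_fst).prodMk (measurable_fst.comp measurable_fst))
        have m2 : Measurable fun q : ((κ → ℝ) × Ω) × Ω => D q.2 q.1.1 :=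
          mD.comp (measurable_snd.prodMk (measurable_fst.comp measurable_fst))
        exact m1.mul m2
      exact (m3.lintegral_prod_right').aemeasurable

/-- Scaling of the standard Gaussian measure. -/
lemma lint_scale {n : ℕ} {ρ : ℝ} (hρ : ρ < 1) {g : (Fin n → ℝ) → ℝ≥0∞} (hg : Measurable g) :
    ∫⁻ z, ENNReal.ofReal (Real.exp (ρ / 2 * ∑ i, z i ^ 2)) * g z ∂(gI (Fin n)) =
      ENNReal.ofReal ((√(1 - ρ) ^ n)⁻¹) *
        ∫⁻ z, g ((√(1 - ρ))⁻¹ • z) ∂(gI (Fin n)) := by
  obtain ⟨c, hc⟩ : ∃ c, c = √(1 - ρ) := ⟨_, rfl⟩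
  have hc0 : 0 < c := by rw [hc]; exact Real.sqrt_pos.2 (by linarith)
  have hc2 : c ^ 2 = 1 - ρ := by rw [hc]; exact Real.sq_sqrt (by linarith)
  rw [← hc, H785.lint_gI, H785.lint_gI]
  obtain ⟨h, hh⟩ : ∃ h : (Fin n → ℝ) → ℝ≥0∞, h = fun y =>
      ENNReal.ofReal (H785.gd y) * g (c⁻¹ • y) := ⟨_, rfl⟩
  have mh : Measurable h := by
    rw [hh]
    exact (H785.gd_meas.ennreal_ofReal).mul (hg.comp (measurable_const_smul _))
  have e1 : ∀ z : Fin n → ℝ, ENNReal.ofReal (H785.gd z) *
      (ENNReal.ofReal (Real.exp (ρ / 2 * ∑ i, z i ^ 2)) * g z) = h (c • z) := by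
    intro z
    rw [hh]
    simp only
    rw [smul_smul, inv_mul_cancel₀ hc0.ne', one_smul, ← mul_assoc,
      ← ENNReal.ofReal_mul (H785.gd_pos z).le]
    congr 2
    rw [H785.gd_eq, H785.gd_eq, mul_assoc, ← Real.exp_add]
    congr 2
    have e2 : ∑ i, (c • z) i ^ 2 = (1 - ρ) * ∑ i, z i ^ 2 := by
      rw [Finset.mul_sum]
      refine Finset.sum_congr rfl fun i _ => ?_
      rw [Pi.smul_apply, smul_eq_mul, mul_pow, hc2]
    rw [e2]
    ring
  simp only [e1]
  have e3 := Measure.map_addHaar_smul (volume : Measure (Fin n → ℝ)) hc0.ne'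
  rw [← lintegral_map mh (measurable_const_smul c), e3, lintegral_smul_measure, smul_eq_mul,
    Module.finrank_fin_fun, abs_of_pos (by positivity), hh]

end Vale.Agent.P146.H877
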